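import Vale.Agent.P167.H680.Legs
import Vale.Agent.P167.H662.StartDefs2

/-!
# P167, block 2A: the final statement from `HOS` and `START`
-/

namespace Vale.Agent.P167.H680

open Finset Filter Topology MeasureTheory
open Vale.Agent.P167.H592
open Vale.Agent.P167.H327 (fl)
open Vale.Agent.P167.BR (VD)
open Vale.Agent.P167.H825 (epos dvg Box dv FlowIn enl domP alp lapl Lin3 WC Grp PW HOS
  pdir bsite OSb os gX gY gD gA S2aQ)
open Vale.Agent.P167.H199 (Fc insW GI grp mks KB bN Gen)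
open Vale.Agent.P167.H662 (STARTR)
open Vale.Agent.P167.E6 (IsPolygon Encloses dir)

variable {l : ℕ} {p : ZMod l → ℤ × ℤ} {S₀ : Finset (ℤ × ℤ)} {b : Box} {φ₁ φ₂ ψ : ℝ × ℝ → ℝ}
  {tp : ℝ} {zt zf : ℕ → ℝ}

/-- **Six legs** for the polygon with holes of size `δ`. -/
theorem legs [NeZero l] (hp : IsPolygon p) (hS : Encloses p S₀) (hb : b.Ok S₀)
    (h : Dat S₀ b φ₁ φ₂ ψ) (h0 : 0 < tp) (h1 : tp < 1)
    (ht : ∀ i : ℤ, ∀ y ∈ ({b.xl, b.xr, b.yb, b.yt} : Set ℝ), y ≠ i + tp ∧ y ≠ i - tp) (s : ℝ)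
    (hzt : ∀ᶠ n in atTop, 0 < zt n) (hzf : ∀ᶠ n in atTop, 0 < zf n) (hH : HOS zt zf) :
    ∃ δ₀ : ℝ, 0 < δ₀ ∧ ∀ δ : ℝ, 0 < δ → δ < δ₀ → Tendsto (fun n : ℕ =>
      (∫ ω, (PW p (mks p b tp) n ⌊δ * n⌋₊ (fun e => ∑ r, pf1 b φ₁ φ₂ ψ s n r e)).X ω ∂μ -
        alp (dvg φ₁ φ₂) ψ s *
          ∫ ω, (PW p (mks p b tp) n ⌊δ * n⌋₊ (fun e => ∑ r, pf b φ₁ φ₂ n r e)).X ω ∂μ) /
      (zt n ^ (l * 3) * zf n)) atTop (𝓝 0) := by
  classical
  have hgen : Gen b := ⟨hb.gx, hb.gy⟩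
  have hQ : (mks p b tp).Ok := H199.mks_ok p hgen h0 h1 ht
  have he : IsEmpty (GI p b tp 4) := H199.isEmpty_GI hgen hp hS hb.sub tp
  obtain ⟨om, hom, -⟩ := H199.exists_isOm
  obtain ⟨δ₀, hδ₀, H⟩ := gam_ok hp hS hb h h0 h1 ht s he
  refine ⟨δ₀, hδ₀, fun δ hδ hδ' => ?_⟩
  obtain ⟨η, hη, ρ, κ, R, B, hΓ, hd, hbox, hY4⟩ := H δ hδ hδ'
  have hs3 : (0 : ℝ) ≤ √3 := Real.sqrt_nonneg _
  have hs1 : (1 : ℝ) ≤ √3 := one_le_sqrt3
  have key := H825.six_legs_ev (S := sysOm om) (N := bN η) (g := (gam p h tp s δ he).g)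
    (Z := (gam p h tp s δ he).Z zt zf) (ρ := ρ) (xl := fun n => ⌊b.xl * n⌋)
    (xr := fun n => ⌊b.xr * n⌋) (yb := fun n => ⌊b.yb * n⌋) (yt := fun n => ⌊b.yt * n⌋)
    hom.ok (Eventually.of_forall fun n => one_le_NN η n) hbox
    (Eventually.of_forall fun n => Int.floor_le_floor
      (mul_le_mul_of_nonneg_right h.lr.le (Nat.cast_nonneg _)))
    (Eventually.of_forall fun n => Int.floor_le_floor
      (mul_le_mul_of_nonneg_right h.bt.le (Nat.cast_nonneg _)))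
    (by
      filter_upwards [hΓ.li, hY4] with n a1 a2 i
      by_cases hi : i = 4
      · subst hi
        exact a2
      · show LI _ ((gam p h tp s δ he).g i n).1
        rw [gam_g hi n]
        exact a1 i)
    (by
      filter_upwards [hzt, hzf] with n a1 a2 i
      exact mul_pos (pow_pos a1 _) (pow_pos a2 _))
    (hom.refl_X hs3) (hom.refl_Y hs3) (hom.refl_D hs1) (hom.refl_A hs1)
    (H825.Grp.osb hΓ hH hom H199.rwX hom.ok (hom.refl_X hs3) H825.gX_ok H825.thLin_X)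
    (H825.Grp.osb hΓ hH hom H199.rwY hom.ok (hom.refl_Y hs3) H825.gY_ok H825.thLin_Y)
    (H825.Grp.osb hΓ hH hom H199.rwD hom.ok (hom.refl_D hs1) H825.gD_ok H825.thLin_D)
    (H825.Grp.osb hΓ hH hom H199.rwA hom.ok (hom.refl_A hs1) H825.gA_ok H825.thLin_A)
    (by
      have c := centre_os (om := om) hom h.lr h.bt h.h1 h.h2 h.hψ h.c1 h.c2 h.cψ h.hsub h.d1 h.d2 s
        (line_tendsto b hη) (by linarith)
      refine c.congr fun n => ?_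
      rw [gam_Z4, one_pow, div_one, gam_g4]
      rfl)
  have key2 : Tendsto (fun n : ℕ =>
      (((∫ ω, (PW p (mks p b tp) n ⌊δ * n⌋₊ (fun e => ∑ r, pf1 b φ₁ φ₂ ψ s n r e)).X ω ∂μ -
        alp (dvg φ₁ φ₂) ψ s *
          ∫ ω, (PW p (mks p b tp) n ⌊δ * n⌋₊ (fun e => ∑ r, pf b φ₁ φ₂ n r e)).X ω ∂μ) /
      (zt n ^ (l * 3) * zf n) : ℝ) : ℂ)) atTop (𝓝 0) := by
    refine key.congr' ?_
    filter_upwards [hd] with n hn
    rw [om_prod hom n hn, prod_Z hQ]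
    push_cast
    rfl
  have key3 := (Complex.continuous_re.tendsto 0).comp key2
  refine (key3.congr fun n => ?_)
  exact Complex.ofReal_re _

/-- **Block 2A from the inputs.** -/
theorem s2aQ_of (hzt : ∀ᶠ n in atTop, 0 < zt n) (hzf : ∀ᶠ n in atTop, 0 < zf n)
    (hH : HOS zt zf) (hST : STARTR zt zf) : S2aQ := by
  intro l _ p S₀ hp hS tp h0 h1 b hb ht φ₁ φ₂ ψ k1 k2 k3 c1 c2 c3 t1 t2 hsub d1 d2 s
  have h : Dat S₀ b φ₁ φ₂ ψ := ⟨hb.lr, hb.bt, hb.sub, k1, k2, k3, c1, c2, c3, t1, t2, hsub, d1, d2⟩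
  have hgen : Gen b := ⟨hb.gx, hb.gy⟩
  have hQ : (mks p b tp).Ok := H199.mks_ok p hgen h0 h1 ht
  obtain ⟨κ₀, hκ₀, B, hB, hF⟩ := h.flowIn s
  obtain ⟨δ₁, hδ₁, HL⟩ := legs hp hS hb h h0 h1 ht s hzt hzf hH
  set α : ℝ := alp (dvg φ₁ φ₂) ψ s with hα
  rw [Metric.tendsto_nhds]
  intro ε hε
  set ε' : ℝ := ε / (4 * (1 + |α|)) with hε'
  have hα1 : 0 < 1 + |α| := by positivity
  have hε'0 : 0 < ε' := by positivity
  set B' : ℝ := (#(univ : Finset (Fin 5)) : ℕ) * B with hB'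
  obtain ⟨δ₂, hδ₂, HS⟩ := hST l p S₀ hp hS (mks p b tp) hQ κ₀ B' hκ₀ ε' hε'0
  set δ : ℝ := min δ₁ δ₂ / 2 with hδ
  have hm : 0 < min δ₁ δ₂ := lt_min hδ₁ hδ₂
  have hδ0 : 0 < δ := by positivity
  have hδ1 : δ < δ₁ := by
    have := min_le_left δ₁ δ₂
    linarith
  have hδ2 : δ < δ₂ := by
    have := min_le_right δ₁ δ₂
    linarith
  obtain ⟨c₀, hc₀, hev⟩ := HS δ hδ0 hδ2
  have hL := (Metric.tendsto_nhds.1 (HL δ hδ0 hδ1)) (c₀ * (ε / 2)) (by positivity)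
  filter_upwards [hev, hL, hF, hzt, hzf, eventually_gt_atTop 0] with n a1 a2 a3 a4 a5 hn0
  obtain ⟨b1, b2⟩ := a1
  have f0 : FlowIn (enl S₀ n) κ₀ B' n (fun e => ∑ r, pf b φ₁ φ₂ n r e) :=
    flowIn_sum univ fun r _ => (a3 r).1
  have f1 : FlowIn (enl S₀ n) κ₀ B' n (fun e => ∑ r, pf1 b φ₁ φ₂ ψ s n r e) :=
    flowIn_sum univ fun r _ => (a3 r).2
  have g0 := b2 _ f0
  have g1 := b2 _ f1
  have hv0 : dv (fun e => ∑ r, pf b φ₁ φ₂ n r e) = H638.cm (dvg φ₁ φ₂) (1 / n) :=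
    funext fun z => h.dv0 hn0 z
  have hv1 : dv (fun e => ∑ r, pf1 b φ₁ φ₂ ψ s n r e) =
      H638.cm (fun x => dvg φ₁ φ₂ x + s * lapl ψ x) (1 / n) := funext fun z => h.dv1 s hn0 z
  rw [hv0] at g0
  rw [hv1] at g1
  have hbs : bsite p (mks p b tp) n =
    (n : ℤ) • p 0 + (⌊tp * n⌋₊ : ℤ) • dir (pdir p 0) := rfl
  rw [hbs] at g0 g1
  rw [dist_zero_right, Real.norm_eq_abs] at a2 ⊢
  set V1 := VD (enl S₀ n) ((n : ℤ) • p 0 + (⌊tp * n⌋₊ : ℤ) • dir (pdir p 0))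
    (H638.cm (fun x => dvg φ₁ φ₂ x + s * lapl ψ x) (1 / n)) with hV1
  set V0 := VD (enl S₀ n) ((n : ℤ) • p 0 + (⌊tp * n⌋₊ : ℤ) • dir (pdir p 0))
    (H638.cm (dvg φ₁ φ₂) (1 / n)) with hV0
  set E : ℝ := ∫ ω, (PW p (mks p b tp) n ⌊δ * (n : ℝ)⌋₊ 0).X ω ∂μ with hE
  set E1 : ℝ := ∫ ω, (PW p (mks p b tp) n ⌊δ * (n : ℝ)⌋₊
    (fun e => ∑ r, pf1 b φ₁ φ₂ ψ s n r e)).X ω ∂μ with hE1
  set E0 : ℝ := ∫ ω, (PW p (mks p b tp) n ⌊δ * (n : ℝ)⌋₊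
    (fun e => ∑ r, pf b φ₁ φ₂ n r e)).X ω ∂μ with hE0
  set Z : ℝ := zt n ^ (l * 3) * zf n with hZ
  have hZ0 : 0 < Z := mul_pos (pow_pos a4 _) a5
  have b1' : c₀ * Z ≤ E := b1
  have hE0' : 0 < E := lt_of_lt_of_le (by positivity) b1'
  rw [abs_div, abs_of_pos hZ0, div_lt_iff₀ hZ0] at a2
  have e1 : |E1 - α * E0| < ε / 2 * E := by
    calc |E1 - α * E0| < c₀ * (ε / 2) * Z := a2
      _ = ε / 2 * (c₀ * Z) := by ring
      _ ≤ ε / 2 * E := mul_le_mul_of_nonneg_left b1' (by positivity)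
  have e2 : (1 + |α|) * ε' = ε / 4 := by
    rw [hε']
    field_simp
  have e3 : |E * (V1 - α * V0)| < ε * E := by
    have e4 : E * (V1 - α * V0) = (E1 - α * E0) - (E1 - E * V1) + α * (E0 - E * V0) := by ring
    rw [e4]
    have e5 : |α * (E0 - E * V0)| ≤ |α| * (ε' * E) := by
      rw [abs_mul]
      exact mul_le_mul_of_nonneg_left g0 (abs_nonneg _)
    have e6 : |(E1 - α * E0) - (E1 - E * V1) + α * (E0 - E * V0)| ≤
        |E1 - α * E0| + |E1 - E * V1| + |α * (E0 - E * V0)| :=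
      (abs_add_le _ _).trans (add_le_add (abs_sub _ _) le_rfl)
    have e7 : ε' * E + |α| * (ε' * E) = ε / 4 * E := by
      rw [← e2]
      ring
    have e8 : ε / 2 * E + ε / 4 * E < ε * E := by nlinarith
    linarith
  rw [abs_mul, abs_of_pos hE0', mul_comm ε E] at e3
  exact lt_of_mul_lt_mul_left e3 hE0'.le

end Vale.Agent.P167.H680
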