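import Vale.Agent.P167.H680.Centre

/-!
# P167, block 2A: from margins to the regions of the six legs
-/

namespace Vale.Agent.P167.H680

open Finset Filter Topology MeasureTheory
open Vale.Agent.P167.H592
open Vale.Agent.P167.H327 (fl)
open Vale.Agent.P167.H825 (KK epos dvg Box)

variable {b : Box}

/-- Width of the corridors. -/
noncomputable def NN (η : ℝ) (n : ℕ) : ℕ := max 1 ⌊η * n⌋₊

theorem one_le_NN (η : ℝ) (n : ℕ) : 1 ≤ NN η n := le_max_left _ _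

/-- The edges at a position with margins are in the region of the six legs. -/
theorem kk_of_mg {κ : ℝ} {n : ℕ} {ρ : ℕ} {N : ℕ → ℕ} {i : Fin 5} {e : Ed}
    (h : Mg b κ n i (epos e)) (hN : 4 * (N n : ℝ) + 2 ≤ κ * n)
    (hρ : (nm (epos e) : ℝ) + 1 ≤ ρ * N n) :
    e ∈ EdT (KK ρ N (fun n => ⌊b.xl * n⌋) (fun n => ⌊b.xr * n⌋) (fun n => ⌊b.yb * n⌋)
      (fun n => ⌊b.yt * n⌋) i n) := by
  have key : ∀ q : ℤ × ℤ, |q.1 - (epos e).1| ≤ 1 → |q.2 - (epos e).2| ≤ 1 →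
      q ∈ KK ρ N (fun n => ⌊b.xl * n⌋) (fun n => ⌊b.xr * n⌋) (fun n => ⌊b.yb * n⌋)
        (fun n => ⌊b.yt * n⌋) i n := by
    intro q h1 h2
    have hρ' : nm (epos e) + 1 ≤ ρ * N n := by exact_mod_cast hρ
    have n1 : |(epos e).1| ≤ nm (epos e) := le_max_left _ _
    have n2 : |(epos e).2| ≤ nm (epos e) := le_max_right _ _
    have f1 : ∀ c : ℝ, (⌊c⌋ : ℝ) ≤ c := Int.floor_le
    have f2 : ∀ c : ℝ, c < (⌊c⌋ : ℝ) + 1 := Int.lt_floor_add_one
    have q1 : ((epos e).1 : ℝ) - 1 ≤ q.1 ∧ (q.1 : ℝ) ≤ (epos e).1 + 1 := by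
      rw [abs_le] at h1
      have a1 : (epos e).1 - 1 ≤ q.1 := by omega
      have a2 : q.1 ≤ (epos e).1 + 1 := by omega
      exact ⟨by exact_mod_cast a1, by exact_mod_cast a2⟩
    have q2 : ((epos e).2 : ℝ) - 1 ≤ q.2 ∧ (q.2 : ℝ) ≤ (epos e).2 + 1 := by
      rw [abs_le] at h2
      have a1 : (epos e).2 - 1 ≤ q.2 := by omega
      have a2 : q.2 ≤ (epos e).2 + 1 := by omega
      exact ⟨by exact_mod_cast a1, by exact_mod_cast a2⟩
    have hN0 : (0 : ℝ) ≤ N n := Nat.cast_nonneg _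
    have up : ∀ {z : ℤ} {c : ℝ}, (z : ℝ) + κ * n ≤ c + 1 → z ≤ ⌊c⌋ - 4 * N n := by
      intro z c hz
      have := f2 c
      have h3 : (z : ℝ) < (⌊c⌋ - 4 * N n : ℤ) + 1 := by push_cast; linarith
      have h4 : z < (⌊c⌋ - 4 * N n) + 1 := by exact_mod_cast h3
      omega
    have lo : ∀ {z : ℤ} {c : ℝ}, c + κ * n ≤ (z : ℝ) + 1 → ⌊c⌋ + 4 * N n ≤ z := by
      intro z c hz
      have := f1 c
      have h3 : ((⌊c⌋ + 4 * N n : ℤ) : ℝ) < z + 1 := by push_cast; linarith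
      have h4 : ⌊c⌋ + 4 * N n < z + 1 := by exact_mod_cast h3
      omega
    rw [abs_le] at h1 h2 n1 n2
    refine ⟨by rw [abs_le]; constructor <;> omega, by rw [abs_le]; constructor <;> omega, ?_⟩
    fin_cases i
    · have e1 : ((epos e).1 : ℝ) + κ * n ≤ b.xl * n := h
      show q.1 ≤ ⌊b.xl * n⌋ - 4 * N n
      exact up (by linarith [q1.2])
    · have e1 : b.xl * n + κ * n ≤ ((epos e).1 : ℝ) := h.1
      have e2 : b.yt * n + κ * n ≤ ((epos e).2 : ℝ) := h.2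
      refine ⟨?_, ?_⟩
      · show ⌊b.yt * n⌋ + 4 * N n ≤ q.2
        exact lo (by linarith [q2.1])
      · show ⌊b.xl * n⌋ ≤ q.1
        have := lo (z := q.1) (c := b.xl * n) (by linarith [q1.1])
        omega
    · have e1 : b.xr * n + κ * n ≤ ((epos e).1 : ℝ) := h.1
      have e2 : ((epos e).2 : ℝ) + κ * n ≤ b.yt * n := h.2
      refine ⟨?_, ?_⟩
      · show ⌊b.xr * n⌋ + 4 * N n ≤ q.1
        exact lo (by linarith [q1.1])
      · show q.2 ≤ ⌊b.yt * n⌋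
        have := up (z := q.2) (c := b.yt * n) (by linarith [q2.2])
        omega
    · have e1 : b.xl * n + κ * n ≤ ((epos e).1 : ℝ) := h.1
      have e2 : ((epos e).1 : ℝ) + κ * n ≤ b.xr * n := h.2.1
      have e3 : ((epos e).2 : ℝ) + κ * n ≤ b.yb * n := h.2.2
      refine ⟨?_, ?_, ?_⟩
      · show q.2 ≤ ⌊b.yb * n⌋ - 4 * N n
        exact up (by linarith [q2.2])
      · show ⌊b.xl * n⌋ ≤ q.1
        have := lo (z := q.1) (c := b.xl * n) (by linarith [q1.1])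
        omega
      · show q.1 ≤ ⌊b.xr * n⌋
        have := up (z := q.1) (c := b.xr * n) (by linarith [q1.2])
        omega
    · have e1 : b.xl * n + κ * n ≤ ((epos e).1 : ℝ) := h.1
      have e2 : ((epos e).1 : ℝ) + κ * n ≤ b.xr * n := h.2.1
      have e3 : b.yb * n + κ * n ≤ ((epos e).2 : ℝ) := h.2.2.1
      have e4 : ((epos e).2 : ℝ) + κ * n ≤ b.yt * n := h.2.2.2
      refine ⟨?_, ?_, ?_, ?_⟩
      · show ⌊b.yb * n⌋ ≤ q.2
        have := lo (z := q.2) (c := b.yb * n) (by linarith [q2.1])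
        omega
      · show q.2 ≤ ⌊b.yt * n⌋
        have := up (z := q.2) (c := b.yt * n) (by linarith [q2.2])
        omega
      · show ⌊b.xl * n⌋ ≤ q.1
        have := lo (z := q.1) (c := b.xl * n) (by linarith [q1.1])
        omega
      · show q.1 ≤ ⌊b.xr * n⌋
        have := up (z := q.1) (c := b.xr * n) (by linarith [q1.2])
        omega
  rcases e with v | v
  · intro i' j' h1 h2 h3 h4
    refine key _ ?_ ?_
    · show |v.1 + i' - v.1| ≤ 1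
      rw [abs_le]
      constructor <;> omega
    · show |v.2 + j' - v.2| ≤ 1
      rw [abs_le]
      constructor <;> omega
  · intro i' j' h1 h2 h3 h4
    refine key _ ?_ ?_
    · show |v.1 + i' - v.1| ≤ 1
      rw [abs_le]
      constructor <;> omega
    · show |v.2 + j' - v.2| ≤ 1
      rw [abs_le]
      constructor <;> omega

variable {φ₁ φ₂ ψ : ℝ × ℝ → ℝ}

/-- Eventually, with corridors of width `η n`, `η < κ / 4`. -/
theorem NN_ev {κ η : ℝ} (hη : 4 * η < κ) (hη0 : 0 < η) :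
    ∀ᶠ n : ℕ in atTop, 4 * (NN η n : ℝ) + 2 ≤ κ * n := by
  have h1 : Tendsto (fun n : ℕ => (κ - 4 * η) * n) atTop atTop :=
    tendsto_natCast_atTop_atTop.const_mul_atTop (by linarith)
  filter_upwards [h1.eventually_ge_atTop 6] with n hn
  have h2 : (NN η n : ℝ) ≤ 1 + η * n := by
    unfold NN
    rw [Nat.cast_max]
    refine max_le ?_ ?_
    · have : (0 : ℝ) ≤ η * n := by positivity
      simp only [Nat.cast_one]
      linarith
    · have := Nat.floor_le (show (0 : ℝ) ≤ η * n by positivity)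
      linarith
  nlinarith

/-- Eventually the box of radius `R n` is in the box of radius `ρ N`. -/
theorem NN_rho {η : ℝ} (hη0 : 0 < η) (R : ℝ) :
    ∃ ρ : ℕ, ∀ᶠ n : ℕ in atTop, ∀ x : ℝ, x ≤ R * n → x + 2 ≤ ρ * NN η n := by
  obtain ⟨ρ, hρ⟩ := exists_nat_gt ((|R| + 1) * 2 / η)
  refine ⟨ρ, ?_⟩
  have h1 : Tendsto (fun n : ℕ => η * (n : ℝ)) atTop atTop :=
    tendsto_natCast_atTop_atTop.const_mul_atTop hη0
  filter_upwards [h1.eventually_ge_atTop 2, eventually_ge_atTop 2] with n hn hn2 x hx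
  have h2 : η * n - 1 ≤ (NN η n : ℝ) := by
    have h3 := Nat.lt_floor_add_one (η * n)
    have h4 : ((⌊η * n⌋₊ : ℕ) : ℝ) ≤ NN η n := by
      unfold NN
      exact_mod_cast le_max_right _ _
    linarith
  have h5 : η * n / 2 ≤ (NN η n : ℝ) := by linarith
  have hn' : (2 : ℝ) ≤ n := by exact_mod_cast hn2
  rw [div_lt_iff₀ hη0] at hρ
  have h6 : (|R| + 1) * n ≤ ρ * NN η n := by
    have h7 : (ρ : ℝ) * (η * n / 2) ≤ ρ * NN η n :=
      mul_le_mul_of_nonneg_left h5 (Nat.cast_nonneg _)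
    nlinarith
  have h8 : R * n ≤ |R| * n := mul_le_mul_of_nonneg_right (le_abs_self R) (by linarith)
  nlinarith

/-- **The flow of the part `i` is eventually in the region `i` of the six legs.** -/
theorem prt_kk (hlr : b.xl < b.xr) (hbt : b.yb < b.yt)
    (c1 : HasCompactSupport φ₁) (c2 : HasCompactSupport φ₂)
    (hd1 : Disjoint (tsupport φ₁) b.lines) (hd2 : Disjoint (tsupport φ₂) b.lines) (i : Fin 5) :
    ∃ κ > 0, ∃ R : ℝ, ∀ η > 0, 4 * η < κ → ∀ ρ : ℕ,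
      (∀ᶠ n : ℕ in atTop, ∀ x : ℝ, x ≤ R * n → x + 2 ≤ ρ * NN η n) →
      ∀ᶠ n : ℕ in atTop, ∀ e, fl (prt b i φ₁) (prt b i φ₂) (1 / n) e ≠ 0 →
        e ∈ EdT (KK ρ (NN η) (fun n => ⌊b.xl * n⌋) (fun n => ⌊b.xr * n⌋) (fun n => ⌊b.yb * n⌋)
          (fun n => ⌊b.yt * n⌋) i n) := by
  obtain ⟨κ, hκ, h⟩ := fl_prt_mg hlr hbt c1 c2 hd1 hd2 i
  obtain ⟨R, hR, hR'⟩ := H327.exists_R (compact_prt hlr hbt hd1 c1 i)
    (compact_prt hlr hbt hd2 c2 i)
  refine ⟨κ, hκ, R, fun η hη hηκ ρ hρ => ?_⟩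
  filter_upwards [h, hρ, NN_ev hηκ hη, eventually_gt_atTop 0] with n h1 h2 h3 h4 e he
  exact kk_of_mg (h1 e he) h3 (by linarith [h2 _ (hR' n h4 e he)])

/-- Splitting: a function supported in the box is its own centre part. -/
theorem prt_self {ψ : ℝ × ℝ → ℝ}
    (hsub : tsupport ψ ⊆ {x | b.xl < x.1 ∧ x.1 < b.xr ∧ b.yb < x.2 ∧ x.2 < b.yt}) :
    prt b 4 ψ = ψ := by
  funext x
  by_cases hx : x ∈ Rg b 4
  · exact prt_of_mem hx
  · rw [prt_of_notMem hx]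
    by_contra h
    exact hx (hsub (subset_tsupport _ (Ne.symm h)))


theorem box_lines {x : ℝ × ℝ} (hlr : b.xl < b.xr) (hbt : b.yb < b.yt)
    (hx : b.xl < x.1 ∧ x.1 < b.xr ∧ b.yb < x.2 ∧ x.2 < b.yt) : x ∉ b.lines :=
  Rg_lines hlr hbt (i := 4) hx

theorem grad_sub (hsub : tsupport ψ ⊆ {x | b.xl < x.1 ∧ x.1 < b.xr ∧ b.yb < x.2 ∧ x.2 < b.yt})
    (v : ℝ × ℝ) : tsupport (fun x => fderiv ℝ ψ x v) ⊆
      {x | b.xl < x.1 ∧ x.1 < b.xr ∧ b.yb < x.2 ∧ x.2 < b.yt} :=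
  (tsupport_fderiv_apply_subset ℝ v).trans hsub

theorem disj_lines (hlr : b.xl < b.xr) (hbt : b.yb < b.yt) {φ : ℝ × ℝ → ℝ}
    (hsub : tsupport φ ⊆ {x | b.xl < x.1 ∧ x.1 < b.xr ∧ b.yb < x.2 ∧ x.2 < b.yt}) :
    Disjoint (tsupport φ) b.lines :=
  Set.disjoint_left.2 fun _ hx => box_lines hlr hbt (hsub hx)

/-- The flow of `Δψ` is eventually in the centre region. -/
theorem dC_kk (hlr : b.xl < b.xr) (hbt : b.yb < b.yt) (cψ : HasCompactSupport ψ)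
    (hsub : tsupport ψ ⊆ {x | b.xl < x.1 ∧ x.1 < b.xr ∧ b.yb < x.2 ∧ x.2 < b.yt}) (s : ℝ) :
    ∃ κ > 0, ∃ R : ℝ, ∀ η > 0, 4 * η < κ → ∀ ρ : ℕ,
      (∀ᶠ n : ℕ in atTop, ∀ x : ℝ, x ≤ R * n → x + 2 ≤ ρ * NN η n) →
      ∀ᶠ n : ℕ in atTop, ∀ e, dC ψ s n e ≠ 0 →
        e ∈ EdT (KK ρ (NN η) (fun n => ⌊b.xl * n⌋) (fun n => ⌊b.xr * n⌋) (fun n => ⌊b.yb * n⌋)
          (fun n => ⌊b.yt * n⌋) 4 n) := by
  have g1 := grad_sub hsub (1, 0)
  have g2 := grad_sub hsub (0, 1)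
  obtain ⟨κ, hκ, R, h⟩ := prt_kk (φ₁ := fun x => fderiv ℝ ψ x (1, 0))
    (φ₂ := fun x => fderiv ℝ ψ x (0, 1)) hlr hbt (cψ.fderiv_apply ℝ (1, 0))
    (cψ.fderiv_apply ℝ (0, 1)) (disj_lines hlr hbt g1) (disj_lines hlr hbt g2) 4
  refine ⟨κ, hκ, R, fun η hη hηκ ρ hρ => ?_⟩
  filter_upwards [h η hη hηκ ρ hρ] with n hn e he
  refine hn e fun h0 => he ?_
  rw [prt_self g1, prt_self g2] at h0
  show s * _ = 0
  rw [h0, mul_zero]

/-- **The centre is eventually in the centre region.** -/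
theorem centre_In {om : Ins → ℂ} (hlr : b.xl < b.xr) (hbt : b.yb < b.yt)
    (c1 : HasCompactSupport φ₁) (c2 : HasCompactSupport φ₂) (cψ : HasCompactSupport ψ)
    (hsub : tsupport ψ ⊆ {x | b.xl < x.1 ∧ x.1 < b.xr ∧ b.yb < x.2 ∧ x.2 < b.yt})
    (hd1 : Disjoint (tsupport φ₁) b.lines) (hd2 : Disjoint (tsupport φ₂) b.lines) (s α : ℝ) :
    ∃ κ > 0, ∃ R : ℝ, ∀ η > 0, 4 * η < κ → ∀ ρ : ℕ,
      (∀ᶠ n : ℕ in atTop, ∀ x : ℝ, x ≤ R * n → x + 2 ≤ ρ * NN η n) →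
      ∀ᶠ n : ℕ in atTop, (sysOm om).In (KK ρ (NN η) (fun n => ⌊b.xl * n⌋) (fun n => ⌊b.xr * n⌋)
        (fun n => ⌊b.yb * n⌋) (fun n => ⌊b.yt * n⌋) 4 n)
        (YC (cC b φ₁ φ₂ n) (dC ψ s n) (cC_fin hlr hbt c1 c2 hd1 hd2 n) (dC_fin cψ s n) α) := by
  obtain ⟨κ, hκ, R, h⟩ := prt_kk hlr hbt c1 c2 hd1 hd2 4
  obtain ⟨κ', hκ', R', h'⟩ := dC_kk hlr hbt cψ hsub s
  refine ⟨min κ κ', lt_min hκ hκ', max R R', fun η hη hηκ ρ hρ => ?_⟩
  have a1 : 4 * η < κ := hηκ.trans_le (min_le_left _ _)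
  have a2 : 4 * η < κ' := hηκ.trans_le (min_le_right _ _)
  filter_upwards [h η hη a1 ρ (hρ.mono fun n hn x hx => hn x (hx.trans
      (mul_le_mul_of_nonneg_right (le_max_left _ _) (Nat.cast_nonneg _)))),
    h' η hη a2 ρ (hρ.mono fun n hn x hx => hn x (hx.trans
      (mul_le_mul_of_nonneg_right (le_max_right _ _) (Nat.cast_nonneg _))))] with n h1 h2
  exact YC_LI _ _ _ h1 h2

/-- The lines of the reflections of the centre. -/
theorem line_tendsto (b : Box) {η : ℝ} (hη : 0 < η) :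
    Tendsto (fun n : ℕ => ((⌊b.yb * n⌋ - 2 * NN η n : ℤ) : ℝ) / n) atTop
      (𝓝 (b.yb - 2 * η)) := by
  have h1 : Tendsto (fun n : ℕ => (⌊b.yb * n⌋ : ℝ) / n) atTop (𝓝 b.yb) := by
    have h0 : Tendsto (fun n : ℕ => b.yb - 1 / (n : ℝ)) atTop (𝓝 b.yb) := by
      simpa using (tendsto_const_nhds (x := b.yb)).sub tendsto_one_div_atTop_nhds_zero_nat
    refine tendsto_of_tendsto_of_tendsto_of_le_of_le' h0 tendsto_const_nhds ?_ ?_
    · filter_upwards [eventually_gt_atTop 0] with n hn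
      have hn' : (0 : ℝ) < n := by exact_mod_cast hn
      rw [le_div_iff₀ hn', sub_mul, div_mul_cancel₀ _ hn'.ne']
      linarith [Int.lt_floor_add_one (b.yb * n)]
    · filter_upwards [eventually_gt_atTop 0] with n hn
      have hn' : (0 : ℝ) < n := by exact_mod_cast hn
      rw [div_le_iff₀ hn']
      exact Int.floor_le _
  have h2 : Tendsto (fun n : ℕ => (NN η n : ℝ) / n) atTop (𝓝 η) := by
    have h3 : Tendsto (fun n : ℕ => (⌊η * n⌋₊ : ℝ) / n) atTop (𝓝 η) :=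
      (tendsto_nat_floor_mul_div_atTop hη.le).comp tendsto_natCast_atTop_atTop
    refine h3.congr' ?_
    have h4 : Tendsto (fun n : ℕ => η * (n : ℝ)) atTop atTop :=
      tendsto_natCast_atTop_atTop.const_mul_atTop hη
    filter_upwards [h4.eventually_ge_atTop 1] with n hn
    have h5 : 1 ≤ ⌊η * n⌋₊ := (Nat.one_le_floor_iff _).2 hn
    unfold NN
    rw [max_eq_right h5]
  refine (h1.sub (h2.const_mul 2)).congr fun n => ?_
  push_cast
  ring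

end Vale.Agent.P167.H680
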