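import Vale.Agent.P167.H199.PwReg
import Vale.Agent.P167.H825.Osb
import Vale.Agent.P167.H680.Reg

/-!
# P167, block 2A: the data of the six legs for a polygon, a box and a flow
-/

namespace Vale.Agent.P167.H680

open Finset Filter Topology MeasureTheory
open Vale.Agent.P167.H592
open Vale.Agent.P167.H327 (fl)
open Vale.Agent.P167.H825 (epos dvg Box dv FlowIn enl domP alp lapl Lin3 WC Grp PW HOS START S2aQ
  pdir bsite)
open Vale.Agent.P167.H199 (Fc insW GI grp mks KB bN Gen)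
open Vale.Agent.P167.E6 (IsPolygon Encloses dir)

/-! ### flows -/

theorem flowIn_mono {D : Finset (ℤ × ℤ)} {κ κ' B B' : ℝ} {n : ℕ} {c : Ed → ℝ}
    (h : FlowIn D κ B n c) (h1 : κ' ≤ κ) (h2 : B ≤ B') : FlowIn D κ' B' n c where
  sup e he v hv := h.sup e he v (hv.trans (mul_le_mul_of_nonneg_right h1 (Nat.cast_nonneg _)))
  cle e := (h.cle e).trans (div_le_div_of_nonneg_right h2 (Nat.cast_nonneg _))
  dle z := (h.dle z).trans (div_le_div_of_nonneg_right h2 (by positivity))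

theorem flowIn_add {D : Finset (ℤ × ℤ)} {κ B B' : ℝ} {n : ℕ} {c c' : Ed → ℝ}
    (h : FlowIn D κ B n c) (h' : FlowIn D κ B' n c') :
    FlowIn D κ (B + B') n (fun e => c e + c' e) where
  sup e he v hv := by
    by_cases h0 : c e = 0
    · refine h'.sup e (fun h1 => he ?_) v hv
      show c e + c' e = 0
      rw [h0, h1, add_zero]
    · exact h.sup e h0 v hv
  cle e := by
    rw [add_div]
    exact (abs_add_le _ _).trans (add_le_add (h.cle e) (h'.cle e))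
  dle z := by
    have e1 : dv (fun e => c e + c' e) z = dv c z + dv c' z := by
      simp only [dv]
      ring
    rw [e1, add_div]
    exact (abs_add_le _ _).trans (add_le_add (h.dle z) (h'.dle z))

theorem flowIn_smul {D : Finset (ℤ × ℤ)} {κ B : ℝ} {n : ℕ} {c : Ed → ℝ}
    (h : FlowIn D κ B n c) (s : ℝ) : FlowIn D κ (|s| * B) n (fun e => s * c e) where
  sup e he v hv := h.sup e (fun h1 => he (by
    show s * c e = 0
    rw [h1, mul_zero])) v hv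
  cle e := by
    rw [abs_mul, mul_div_assoc]
    exact mul_le_mul_of_nonneg_left (h.cle e) (abs_nonneg s)
  dle z := by
    have e1 : dv (fun e => s * c e) z = s * dv c z := by
      simp only [dv]
      ring
    rw [e1, abs_mul, mul_div_assoc]
    exact mul_le_mul_of_nonneg_left (h.dle z) (abs_nonneg s)

theorem flowIn_sum {D : Finset (ℤ × ℤ)} {κ B : ℝ} {n : ℕ} {I : Type} (A : Finset I)
    {c : I → Ed → ℝ} (h : ∀ i ∈ A, FlowIn D κ B n (c i)) :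
    FlowIn D κ (#A * B) n (fun e => ∑ i ∈ A, c i e) := by
  classical
  induction A using Finset.induction_on with
  | empty =>
    refine ⟨fun e he => absurd (by simp) he, fun e => ?_, fun z => ?_⟩
    · simp
    · simp [dv]
  | insert a A ha ih =>
    have h1 := flowIn_add (h a (mem_insert_self _ _))
      (ih fun i hi => h i (mem_insert_of_mem hi))
    simp only [sum_insert ha]
    rw [card_insert_of_notMem ha]
    refine flowIn_mono h1 le_rfl ?_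
    push_cast
    linarith

/-! ### the data -/

/-- The functions. -/
structure Dat (S₀ : Finset (ℤ × ℤ)) (b : Box) (φ₁ φ₂ ψ : ℝ × ℝ → ℝ) : Prop where
  lr : b.xl < b.xr
  bt : b.yb < b.yt
  sub : ∀ x : ℝ × ℝ, b.xl ≤ x.1 → x.1 ≤ b.xr → b.yb ≤ x.2 → x.2 ≤ b.yt → x ∈ domP S₀
  h1 : ContDiff ℝ ((⊤ : ℕ∞) : WithTop ℕ∞) φ₁
  h2 : ContDiff ℝ ((⊤ : ℕ∞) : WithTop ℕ∞) φ₂
  hψ : ContDiff ℝ ((⊤ : ℕ∞) : WithTop ℕ∞) ψ
  c1 : HasCompactSupport φ₁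
  c2 : HasCompactSupport φ₂
  cψ : HasCompactSupport ψ
  t1 : tsupport φ₁ ⊆ domP S₀
  t2 : tsupport φ₂ ⊆ domP S₀
  hsub : tsupport ψ ⊆ {x | b.xl < x.1 ∧ x.1 < b.xr ∧ b.yb < x.2 ∧ x.2 < b.yt}
  d1 : Disjoint (tsupport φ₁) b.lines
  d2 : Disjoint (tsupport φ₂) b.lines

variable {S₀ : Finset (ℤ × ℤ)} {b : Box} {φ₁ φ₂ ψ : ℝ × ℝ → ℝ}

/-- The flow of the part `r`. -/
noncomputable def pf (b : Box) (φ₁ φ₂ : ℝ × ℝ → ℝ) (n : ℕ) (r : Fin 5) : Ed → ℝ :=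
  fl (prt b r φ₁) (prt b r φ₂) (1 / n)

theorem Dat.pf_fin (h : Dat S₀ b φ₁ φ₂ ψ) (n : ℕ) (r : Fin 5) :
    (Function.support (pf b φ₁ φ₂ n r)).Finite :=
  fl_fin (compact_prt h.lr h.bt h.d1 h.c1 r) (compact_prt h.lr h.bt h.d2 h.c2 r) n

theorem Dat.dC_fin (h : Dat S₀ b φ₁ φ₂ ψ) (s : ℝ) (n : ℕ) :
    (Function.support (dC ψ s n)).Finite := H680.dC_fin h.cψ s n

/-- The flows of the second family. -/
noncomputable def pf1 (b : Box) (φ₁ φ₂ ψ : ℝ × ℝ → ℝ) (s : ℝ) (n : ℕ) (r : Fin 5) (e : Ed) : ℝ :=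
  if r = 4 then pf b φ₁ φ₂ n 4 e + dC ψ s n e else pf b φ₁ φ₂ n r e

theorem pf1_four (b : Box) (φ₁ φ₂ ψ : ℝ × ℝ → ℝ) (s : ℝ) (n : ℕ) :
    pf1 b φ₁ φ₂ ψ s n 4 = fun e => pf b φ₁ φ₂ n 4 e + dC ψ s n e := by
  funext e
  exact if_pos rfl

theorem pf1_ne (b : Box) (φ₁ φ₂ ψ : ℝ × ℝ → ℝ) (s : ℝ) (n : ℕ) {r : Fin 5} (hr : r ≠ 4) :
    pf1 b φ₁ φ₂ ψ s n r = pf b φ₁ φ₂ n r := by
  funext e
  exact if_neg hr

theorem Dat.pf1_fin (h : Dat S₀ b φ₁ φ₂ ψ) (s : ℝ) (n : ℕ) (r : Fin 5) :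
    (Function.support (pf1 b φ₁ φ₂ ψ s n r)).Finite := by
  by_cases hr : r = 4
  · subst hr
    rw [pf1_four]
    exact fs_add (h.pf_fin n 4) (h.dC_fin s n)
  · rw [pf1_ne _ _ _ _ _ _ hr]
    exact h.pf_fin n r

theorem sum_pf1 (b : Box) (φ₁ φ₂ ψ : ℝ × ℝ → ℝ) (s : ℝ) (n : ℕ) (e : Ed) :
    ∑ r, pf1 b φ₁ φ₂ ψ s n r e = ∑ r, pf b φ₁ φ₂ n r e + dC ψ s n e := by
  rw [Fin.sum_univ_five, Fin.sum_univ_five, pf1_four, pf1_ne _ _ _ _ _ _ (by decide),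
    pf1_ne _ _ _ _ _ _ (by decide), pf1_ne _ _ _ _ _ _ (by decide),
    pf1_ne _ _ _ _ _ _ (by decide)]
  ring

theorem Dat.sum_pf (h : Dat S₀ b φ₁ φ₂ ψ) (n : ℕ) (e : Ed) :
    ∑ r, pf b φ₁ φ₂ n r e = fl φ₁ φ₂ (1 / n) e :=
  (sum_fl h.lr h.bt h.h1 h.h2 h.d1 h.d2 (1 / n) e).symm

theorem Dat.cd1 (h : Dat S₀ b φ₁ φ₂ ψ) :
    ContDiff ℝ ((⊤ : ℕ∞) : WithTop ℕ∞) fun x => fderiv ℝ ψ x (1, 0) :=
  (h.hψ.fderiv_right (m := ((⊤ : ℕ∞) : WithTop ℕ∞)) (by simp)).clm_apply contDiff_const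

theorem Dat.cd2 (h : Dat S₀ b φ₁ φ₂ ψ) :
    ContDiff ℝ ((⊤ : ℕ∞) : WithTop ℕ∞) fun x => fderiv ℝ ψ x (0, 1) :=
  (h.hψ.fderiv_right (m := ((⊤ : ℕ∞) : WithTop ℕ∞)) (by simp)).clm_apply contDiff_const

/-- Charges of the first flow. -/
theorem Dat.dv0 (h : Dat S₀ b φ₁ φ₂ ψ) {n : ℕ} (hn : 0 < n) (z : ℤ × ℤ) :
    dv (fun e => ∑ r, pf b φ₁ φ₂ n r e) z = H638.cm (dvg φ₁ φ₂) (1 / n) z := by
  rw [← H327.dv_fl h.h1 h.h2 (by positivity) z]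
  congr 1
  funext e
  exact h.sum_pf n e

/-- Charges of the second flow. -/
theorem Dat.dv1 (h : Dat S₀ b φ₁ φ₂ ψ) (s : ℝ) {n : ℕ} (hn : 0 < n) (z : ℤ × ℤ) :
    dv (fun e => ∑ r, pf1 b φ₁ φ₂ ψ s n r e) z =
      H638.cm (fun x => dvg φ₁ φ₂ x + s * lapl ψ x) (1 / n) z := by
  set ξ₁ : ℝ × ℝ → ℝ := fun x => φ₁ x + s * fderiv ℝ ψ x (1, 0) with hξ1
  set ξ₂ : ℝ × ℝ → ℝ := fun x => φ₂ x + s * fderiv ℝ ψ x (0, 1) with hξ2
  have k1 : ContDiff ℝ ((⊤ : ℕ∞) : WithTop ℕ∞) ξ₁ := h.h1.add (contDiff_const.mul h.cd1)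
  have k2 : ContDiff ℝ ((⊤ : ℕ∞) : WithTop ℕ∞) ξ₂ := h.h2.add (contDiff_const.mul h.cd2)
  have e1 : (fun e => ∑ r, pf1 b φ₁ φ₂ ψ s n r e) = fl ξ₁ ξ₂ (1 / n) := by
    funext e
    rw [sum_pf1, h.sum_pf]
    have a1 : Continuous fun x => s * fderiv ℝ ψ x (1, 0) := continuous_const.mul h.cd1.continuous
    have a2 : Continuous fun x => s * fderiv ℝ ψ x (0, 1) := continuous_const.mul h.cd2.continuous
    rw [H327.fl_add h.h1.continuous h.h2.continuous a1 a2, H327.fl_smul]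
    rfl
  have e2 : dvg ξ₁ ξ₂ = fun x => dvg φ₁ φ₂ x + s * lapl ψ x := by
    funext x
    have b1 : DifferentiableAt ℝ φ₁ x := h.h1.differentiable (by simp) x
    have b2 : DifferentiableAt ℝ φ₂ x := h.h2.differentiable (by simp) x
    have b3 : DifferentiableAt ℝ (fun x => fderiv ℝ ψ x (1, 0)) x :=
      h.cd1.differentiable (by simp) x
    have b4 : DifferentiableAt ℝ (fun x => fderiv ℝ ψ x (0, 1)) x :=
      h.cd2.differentiable (by simp) x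
    simp only [dvg, lapl, hξ1, hξ2]
    rw [fderiv_fun_add b1 (b3.const_mul s), fderiv_fun_add b2 (b4.const_mul s),
      fderiv_const_mul b3, fderiv_const_mul b4]
    simp only [add_apply, smul_apply, smul_eq_mul]
    ring
  rw [e1, H327.dv_fl k1 k2 (by positivity) z, e2]

/-! ### estimates of the flows -/

theorem mg_mono {κ κ' : ℝ} {n : ℕ} {i : Fin 5} {v : ℤ × ℤ} (h : Mg b κ n i v)
    (hk : κ' ≤ κ) : Mg b κ' n i v := by
  have hle : κ' * n ≤ κ * n := mul_le_mul_of_nonneg_right hk (Nat.cast_nonneg _)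
  fin_cases i
  · have h1 : (v.1 : ℝ) + κ * n ≤ b.xl * n := h
    show (v.1 : ℝ) + κ' * n ≤ b.xl * n
    linarith
  · have h1 : b.xl * n + κ * n ≤ v.1 ∧ b.yt * n + κ * n ≤ v.2 := h
    show b.xl * n + κ' * n ≤ v.1 ∧ b.yt * n + κ' * n ≤ v.2
    exact ⟨by linarith [h1.1], by linarith [h1.2]⟩
  · have h1 : b.xr * n + κ * n ≤ v.1 ∧ (v.2 : ℝ) + κ * n ≤ b.yt * n := h
    show b.xr * n + κ' * n ≤ v.1 ∧ (v.2 : ℝ) + κ' * n ≤ b.yt * n
    exact ⟨by linarith [h1.1], by linarith [h1.2]⟩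
  · have h1 : b.xl * n + κ * n ≤ v.1 ∧ (v.1 : ℝ) + κ * n ≤ b.xr * n ∧
      (v.2 : ℝ) + κ * n ≤ b.yb * n := h
    show b.xl * n + κ' * n ≤ v.1 ∧ (v.1 : ℝ) + κ' * n ≤ b.xr * n ∧
      (v.2 : ℝ) + κ' * n ≤ b.yb * n
    exact ⟨by linarith [h1.1], by linarith [h1.2.1], by linarith [h1.2.2]⟩
  · have h1 : b.xl * n + κ * n ≤ v.1 ∧ (v.1 : ℝ) + κ * n ≤ b.xr * n ∧
      b.yb * n + κ * n ≤ v.2 ∧ (v.2 : ℝ) + κ * n ≤ b.yt * n := h
    show b.xl * n + κ' * n ≤ v.1 ∧ (v.1 : ℝ) + κ' * n ≤ b.xr * n ∧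
      b.yb * n + κ' * n ≤ v.2 ∧ (v.2 : ℝ) + κ' * n ≤ b.yt * n
    exact ⟨by linarith [h1.1], by linarith [h1.2.1], by linarith [h1.2.2.1],
      by linarith [h1.2.2.2]⟩

/-- Margins of the flows. -/
theorem Dat.mg (h : Dat S₀ b φ₁ φ₂ ψ) (s : ℝ) : ∃ κ > 0, ∃ R : ℝ, ∀ᶠ n : ℕ in atTop,
    ∀ (r : Fin 5) (e : Ed), pf b φ₁ φ₂ n r e ≠ 0 ∨ pf1 b φ₁ φ₂ ψ s n r e ≠ 0 →
      Mg b κ n r (epos e) ∧ (nm (epos e) : ℝ) ≤ R * n := by
  have H : ∀ r : Fin 5, ∃ κ > 0, ∃ R : ℝ, ∀ᶠ n : ℕ in atTop, ∀ e : Ed, pf b φ₁ φ₂ n r e ≠ 0 →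
      Mg b κ n r (epos e) ∧ (nm (epos e) : ℝ) ≤ R * n := by
    intro r
    obtain ⟨κ, hκ, h1⟩ := fl_prt_mg h.lr h.bt h.c1 h.c2 h.d1 h.d2 r
    obtain ⟨R, -, h2⟩ := H327.exists_R (compact_prt h.lr h.bt h.d1 h.c1 r)
      (compact_prt h.lr h.bt h.d2 h.c2 r)
    refine ⟨κ, hκ, R, ?_⟩
    filter_upwards [h1, eventually_gt_atTop 0] with n hn hn0 e he
    exact ⟨hn e he, h2 n hn0 e he⟩
  have H' : ∃ κ > 0, ∃ R : ℝ, ∀ᶠ n : ℕ in atTop, ∀ e : Ed, dC ψ s n e ≠ 0 →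
      Mg b κ n 4 (epos e) ∧ (nm (epos e) : ℝ) ≤ R * n := by
    have g1 := grad_sub h.hsub (1, 0)
    have g2 := grad_sub h.hsub (0, 1)
    have c1 := h.cψ.fderiv_apply ℝ (1, 0)
    have c2 := h.cψ.fderiv_apply ℝ (0, 1)
    obtain ⟨κ, hκ, h1⟩ := fl_prt_mg h.lr h.bt c1 c2 (disj_lines h.lr h.bt g1)
      (disj_lines h.lr h.bt g2) 4
    obtain ⟨R, -, h2⟩ := H327.exists_R c1 c2
    refine ⟨κ, hκ, R, ?_⟩
    filter_upwards [h1, eventually_gt_atTop 0] with n hn hn0 e he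
    have he' : fl (fun x => fderiv ℝ ψ x (1, 0)) (fun x => fderiv ℝ ψ x (0, 1)) (1 / n) e ≠ 0 := by
      intro h0
      apply he
      show s * _ = 0
      rw [h0, mul_zero]
    refine ⟨hn e ?_, h2 n hn0 e he'⟩
    rw [prt_self g1, prt_self g2]
    exact he'
  choose κ hκ R hR using H
  obtain ⟨κ', hκ', R', hR'⟩ := H'
  obtain ⟨r0, h0⟩ := Finite.exists_min κ
  obtain ⟨r1, h1⟩ := Finite.exists_max R
  refine ⟨min (κ r0) κ', lt_min (hκ r0) hκ', max (R r1) R', ?_⟩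
  filter_upwards [eventually_all.2 hR, hR'] with n hn hn'
  have K1 : ∀ (r : Fin 5) (e : Ed), pf b φ₁ φ₂ n r e ≠ 0 → Mg b (min (κ r0) κ') n r (epos e) ∧
      (nm (epos e) : ℝ) ≤ max (R r1) R' * n := by
    intro r e he
    refine ⟨mg_mono (hn r e he).1 ((min_le_left _ _).trans (h0 r)), (hn r e he).2.trans ?_⟩
    exact mul_le_mul_of_nonneg_right ((h1 r).trans (le_max_left _ _)) (Nat.cast_nonneg _)
  intro r e he
  rcases he with he | he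
  · exact K1 r e he
  · by_cases hr : r = 4
    · subst hr
      rw [pf1_four] at he
      by_cases h3 : pf b φ₁ φ₂ n 4 e = 0
      · have h4 : dC ψ s n e ≠ 0 := fun h5 => he (by
          show pf b φ₁ φ₂ n 4 e + dC ψ s n e = 0
          rw [h3, h5, add_zero])
        refine ⟨mg_mono (hn' e h4).1 (min_le_right _ _), (hn' e h4).2.trans ?_⟩
        exact mul_le_mul_of_nonneg_right (le_max_right _ _) (Nat.cast_nonneg _)
      · exact K1 4 e h3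
    · rw [pf1_ne _ _ _ _ _ _ hr] at he
      exact K1 r e he

/-- The flows are flows in the domain. -/
theorem Dat.flowIn (h : Dat S₀ b φ₁ φ₂ ψ) (s : ℝ) : ∃ κ > 0, ∃ B > 0, ∀ᶠ n : ℕ in atTop,
    ∀ r : Fin 5, FlowIn (enl S₀ n) κ B n (pf b φ₁ φ₂ n r) ∧
      FlowIn (enl S₀ n) κ B n (pf1 b φ₁ φ₂ ψ s n r) := by
  have H : ∀ r : Fin 5, ∃ κ > 0, ∃ B > 0, ∀ᶠ n : ℕ in atTop,
      FlowIn (enl S₀ n) κ B n (pf b φ₁ φ₂ n r) := fun r =>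
    H327.exists_flowIn (contDiff_prt h.lr h.bt h.d1 h.h1 r) (contDiff_prt h.lr h.bt h.d2 h.h2 r)
      (compact_prt h.lr h.bt h.d1 h.c1 r) (compact_prt h.lr h.bt h.d2 h.c2 r)
      ((tsupport_prt h.lr h.bt h.d1 r).trans (Set.inter_subset_left.trans h.t1))
      ((tsupport_prt h.lr h.bt h.d2 r).trans (Set.inter_subset_left.trans h.t2))
  have hs : {x : ℝ × ℝ | b.xl < x.1 ∧ x.1 < b.xr ∧ b.yb < x.2 ∧ x.2 < b.yt} ⊆ domP S₀ :=
    fun x hx => h.sub x hx.1.le hx.2.1.le hx.2.2.1.le hx.2.2.2.le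
  obtain ⟨κ', hκ', B', hB', H'⟩ := H327.exists_flowIn (S₀ := S₀) h.cd1 h.cd2
    (h.cψ.fderiv_apply ℝ (1, 0)) (h.cψ.fderiv_apply ℝ (0, 1))
    ((grad_sub h.hsub (1, 0)).trans hs) ((grad_sub h.hsub (0, 1)).trans hs)
  choose κ hκ B hB hH using H
  obtain ⟨r0, h0⟩ := Finite.exists_min κ
  obtain ⟨r1, h1⟩ := Finite.exists_max B
  have hB1 := hB r1
  refine ⟨min (κ r0) κ', lt_min (hκ r0) hκ', B r1 + |s| * B', by positivity, ?_⟩
  filter_upwards [eventually_all.2 hH, H'] with n hn hn'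
  have K1 : ∀ r : Fin 5, FlowIn (enl S₀ n) (min (κ r0) κ') (B r1) n (pf b φ₁ φ₂ n r) := fun r =>
    flowIn_mono (hn r) ((min_le_left _ _).trans (h0 r)) (h1 r)
  have hle : B r1 ≤ B r1 + |s| * B' := by
    have : 0 ≤ |s| * B' := by positivity
    linarith
  intro r
  refine ⟨flowIn_mono (K1 r) le_rfl hle, ?_⟩
  by_cases hr : r = 4
  · subst hr
    rw [pf1_four]
    exact flowIn_add (K1 4) (flowIn_smul (flowIn_mono hn' (min_le_right _ _) le_rfl) s)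
  · rw [pf1_ne _ _ _ _ _ _ hr]
    exact flowIn_mono (K1 r) le_rfl hle

end Vale.Agent.P167.H680
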