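import Vale.Agent.P167.H327.Disc

/-!
# P167, block DISC (2): splitting of a flow over the five regions of a box

A smooth flow which vanishes near the four lines of the pinwheel of a box is the sum of five smooth
flows, one in each of the regions left, above, right, below, centre.
-/

namespace Vale.Agent.P167.H680

open Set Filter Topology MeasureTheory
open Vale.Agent.P167.H327 (fl)
open Vale.Agent.P167.H825 (dvg lapl dv epos Box)
open Vale.Agent.P167.H638 (cm cl)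

/-- The open regions of a box: left, above, right, below, centre. -/
def Rg (b : Box) : Fin 5 → Set (ℝ × ℝ) :=
  ![{x | x.1 < b.xl}, {x | b.xl < x.1 ∧ b.yt < x.2}, {x | b.xr < x.1 ∧ x.2 < b.yt},
    {x | b.xl < x.1 ∧ x.1 < b.xr ∧ x.2 < b.yb},
    {x | b.xl < x.1 ∧ x.1 < b.xr ∧ b.yb < x.2 ∧ x.2 < b.yt}]

variable {b : Box}

theorem isOpen_Rg (b : Box) (i : Fin 5) : IsOpen (Rg b i) := by
  have o1 : ∀ c : ℝ, IsOpen {x : ℝ × ℝ | x.1 < c} := fun c =>
    isOpen_lt continuous_fst continuous_const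
  have o2 : ∀ c : ℝ, IsOpen {x : ℝ × ℝ | c < x.1} := fun c =>
    isOpen_lt continuous_const continuous_fst
  have o3 : ∀ c : ℝ, IsOpen {x : ℝ × ℝ | x.2 < c} := fun c =>
    isOpen_lt continuous_snd continuous_const
  have o4 : ∀ c : ℝ, IsOpen {x : ℝ × ℝ | c < x.2} := fun c =>
    isOpen_lt continuous_const continuous_snd
  fin_cases i
  · exact o1 _
  · exact (o2 _).inter (o4 _)
  · exact (o2 _).inter (o3 _)
  · exact (o2 _).inter ((o1 _).inter (o3 _))
  · exact (o2 _).inter ((o1 _).inter ((o4 _).inter (o3 _)))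

/-- Every point off the lines is in one of the regions. -/
theorem exists_Rg {x : ℝ × ℝ} (hx : x ∉ b.lines) : ∃ i, x ∈ Rg b i := by
  simp only [Box.lines, mem_ofPred_eq, not_or, not_and, not_le] at hx
  obtain ⟨h1, h2, h3, h4⟩ := hx
  rcases lt_or_gt_of_ne h1 with h | h
  · exact ⟨0, h⟩
  · by_cases hy : b.yt < x.2
    · exact ⟨1, h, hy⟩
    · have hy' : x.2 < b.yt := lt_of_le_of_ne (not_lt.1 hy) fun hh => by
        have := h2 hh
        linarith
      rcases lt_trichotomy x.1 b.xr with h5 | h5 | h5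
      · rcases lt_trichotomy x.2 b.yb with h6 | h6 | h6
        · exact ⟨3, h, h5, h6⟩
        · have := h4 h6 h.le
          linarith
        · exact ⟨4, h, h5, h6, hy'⟩
      · have := h3 h5
        linarith
      · exact ⟨2, h5, hy'⟩

/-- The regions are disjoint. -/
theorem Rg_disj (hlr : b.xl < b.xr) (hbt : b.yb < b.yt) {i j : Fin 5} (hij : i ≠ j) {x : ℝ × ℝ}
    (hi : x ∈ Rg b i) : x ∉ Rg b j := by
  intro hj
  fin_cases i <;> fin_cases j <;> simp [Rg] at hi hj hij <;> linarith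

/-- A region does not meet the lines. -/
theorem Rg_lines (hlr : b.xl < b.xr) (hbt : b.yb < b.yt) {i : Fin 5} {x : ℝ × ℝ}
    (hi : x ∈ Rg b i) : x ∉ b.lines := by
  intro hx
  simp only [Box.lines, mem_ofPred_eq] at hx
  fin_cases i <;> simp [Rg] at hi <;> rcases hx with h | ⟨h, h'⟩ | ⟨h, h'⟩ | ⟨h, h', h''⟩ <;> linarith

open Classical in
/-- The part of `φ` in the region `i`. -/
noncomputable def prt (b : Box) (i : Fin 5) (φ : ℝ × ℝ → ℝ) (x : ℝ × ℝ) : ℝ :=
  if x ∈ Rg b i then φ x else 0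

variable {φ φ₁ φ₂ : ℝ × ℝ → ℝ}

theorem prt_of_mem {i : Fin 5} {x : ℝ × ℝ} (h : x ∈ Rg b i) : prt b i φ x = φ x := if_pos h

theorem prt_of_notMem {i : Fin 5} {x : ℝ × ℝ} (h : x ∉ Rg b i) : prt b i φ x = 0 := if_neg h

/-- Near a point of the region, the part is the function. -/
theorem prt_eventually {i : Fin 5} {x : ℝ × ℝ} (h : x ∈ Rg b i) : prt b i φ =ᶠ[𝓝 x] φ :=
  ((isOpen_Rg b i).eventually_mem h).mono fun _ hy => prt_of_mem hy

/-- Near a point off the region, the part is zero. -/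
theorem prt_eventually_zero (hlr : b.xl < b.xr) (hbt : b.yb < b.yt)
    (hd : Disjoint (tsupport φ) b.lines) {i : Fin 5} {x : ℝ × ℝ} (h : x ∉ Rg b i) :
    prt b i φ =ᶠ[𝓝 x] 0 := by
  by_cases hx : x ∈ b.lines
  · have h1 : x ∉ tsupport φ := fun hh => (Set.disjoint_left.1 hd) hh hx
    have h2 : ∀ᶠ y in 𝓝 x, φ y = 0 := (notMem_tsupport_iff_eventuallyEq.1 h1)
    refine h2.mono fun y hy => ?_
    show prt b i φ y = 0
    unfold prt
    split_ifs
    · exact hy
    · rfl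
  · obtain ⟨j, hj⟩ := exists_Rg hx
    have hij : j ≠ i := fun hh => h (hh ▸ hj)
    refine ((isOpen_Rg b j).eventually_mem hj).mono fun y hy => ?_
    exact prt_of_notMem (Rg_disj hlr hbt hij hy)

theorem contDiff_prt (hlr : b.xl < b.xr) (hbt : b.yb < b.yt)
    (hd : Disjoint (tsupport φ) b.lines) (hφ : ContDiff ℝ ((⊤ : ℕ∞) : WithTop ℕ∞) φ) (i : Fin 5) :
    ContDiff ℝ ((⊤ : ℕ∞) : WithTop ℕ∞) (prt b i φ) := by
  rw [contDiff_iff_contDiffAt]
  intro x
  by_cases hx : x ∈ Rg b i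
  · exact hφ.contDiffAt.congr_of_eventuallyEq (prt_eventually hx)
  · exact contDiffAt_const.congr_of_eventuallyEq (prt_eventually_zero hlr hbt hd hx)

/-- Support of a part. -/
theorem tsupport_prt (hlr : b.xl < b.xr) (hbt : b.yb < b.yt)
    (hd : Disjoint (tsupport φ) b.lines) (i : Fin 5) :
    tsupport (prt b i φ) ⊆ tsupport φ ∩ Rg b i := by
  intro x hx
  have hi : x ∈ Rg b i := by
    by_contra h
    exact notMem_tsupport_iff_eventuallyEq.2 (prt_eventually_zero hlr hbt hd h) hx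
  refine ⟨?_, hi⟩
  by_contra h
  apply notMem_tsupport_iff_eventuallyEq.2 _ hx
  exact (prt_eventually hi).trans (notMem_tsupport_iff_eventuallyEq.1 h)

theorem compact_prt (hlr : b.xl < b.xr) (hbt : b.yb < b.yt)
    (hd : Disjoint (tsupport φ) b.lines) (hc : HasCompactSupport φ) (i : Fin 5) :
    HasCompactSupport (prt b i φ) :=
  hc.isCompact.of_isClosed_subset (isClosed_tsupport _)
    ((tsupport_prt hlr hbt hd i).trans inter_subset_left)

/-- The parts add up. -/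
theorem sum_prt (hlr : b.xl < b.xr) (hbt : b.yb < b.yt)
    (hd : Disjoint (tsupport φ) b.lines) (x : ℝ × ℝ) : ∑ i, prt b i φ x = φ x := by
  by_cases hx : x ∈ b.lines
  · have h1 : φ x = 0 := by
      by_contra h
      exact (Set.disjoint_left.1 hd) (subset_tsupport _ h) hx
    rw [h1]
    refine Finset.sum_eq_zero fun i _ => prt_of_notMem fun hi => Rg_lines hlr hbt hi hx
  · obtain ⟨j, hj⟩ := exists_Rg hx
    rw [Finset.sum_eq_single j]
    · exact prt_of_mem hj
    · intro i _ hij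
      exact prt_of_notMem (Rg_disj hlr hbt (Ne.symm hij) hj)
    · intro h
      exact absurd (Finset.mem_univ j) h

/-- The lattice flow is the sum of the flows of the parts. -/
theorem sum_fl (hlr : b.xl < b.xr) (hbt : b.yb < b.yt)
    (h1 : ContDiff ℝ ((⊤ : ℕ∞) : WithTop ℕ∞) φ₁) (h2 : ContDiff ℝ ((⊤ : ℕ∞) : WithTop ℕ∞) φ₂)
    (hd1 : Disjoint (tsupport φ₁) b.lines) (hd2 : Disjoint (tsupport φ₂) b.lines) (δ : ℝ)
    (e : Ed) : fl φ₁ φ₂ δ e = ∑ i, fl (prt b i φ₁) (prt b i φ₂) δ e := by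
  have k1 : ∀ i, Continuous (prt b i φ₁) := fun i => (contDiff_prt hlr hbt hd1 h1 i).continuous
  have k2 : ∀ i, Continuous (prt b i φ₂) := fun i => (contDiff_prt hlr hbt hd2 h2 i).continuous
  rcases e with v | v
  · simp only [fl, Finset.sum_neg_distrib, neg_inj]
    rw [← intervalIntegral.integral_finsetSum]
    · simp only [sum_prt hlr hbt hd2]
    · intro i _
      exact ((k2 i).comp (by fun_prop)).intervalIntegrable _ _
  · simp only [fl]
    rw [← intervalIntegral.integral_finsetSum]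
    · simp only [sum_prt hlr hbt hd1]
    · intro i _
      exact ((k1 i).comp (by fun_prop)).intervalIntegrable _ _

/-- The divergence of a part. -/
theorem dvg_prt (hlr : b.xl < b.xr) (hbt : b.yb < b.yt)
    (hd1 : Disjoint (tsupport φ₁) b.lines) (hd2 : Disjoint (tsupport φ₂) b.lines) (i : Fin 5)
    (x : ℝ × ℝ) : dvg (prt b i φ₁) (prt b i φ₂) x = prt b i (dvg φ₁ φ₂) x := by
  by_cases hx : x ∈ Rg b i
  · rw [prt_of_mem hx]
    unfold dvg
    rw [(prt_eventually hx).fderiv_eq, (prt_eventually hx).fderiv_eq]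
  · rw [prt_of_notMem hx]
    unfold dvg
    rw [(prt_eventually_zero hlr hbt hd1 hx).fderiv_eq,
      (prt_eventually_zero hlr hbt hd2 hx).fderiv_eq]
    simp


/-- The integral of the divergence of a flow with compact support. -/
theorem integral_dvg (h1 : ContDiff ℝ ((⊤ : ℕ∞) : WithTop ℕ∞) φ₁)
    (h2 : ContDiff ℝ ((⊤ : ℕ∞) : WithTop ℕ∞) φ₂) (c1 : HasCompactSupport φ₁)
    (c2 : HasCompactSupport φ₂) : ∫ x, dvg φ₁ φ₂ x = 0 := by
  obtain ⟨R, hR⟩ := (c1.isCompact.union c2.isCompact).isBounded.subset_closedBall (0 : ℝ × ℝ)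
  set r : ℝ := |R| + 1 with hr
  have hr0 : 0 < r := by positivity
  have hz : ∀ x : ℝ × ℝ, (r ≤ |x.1| ∨ r ≤ |x.2|) → x ∉ tsupport φ₁ ∪ tsupport φ₂ := by
    intro x hx hm
    have h := hR hm
    rw [mem_closedBall_zero_iff, Prod.norm_def, sup_le_iff, Real.norm_eq_abs,
      Real.norm_eq_abs] at h
    have := le_abs_self R
    rcases hx with h' | h' <;> linarith [h.1, h.2]
  have z1 : ∀ x : ℝ × ℝ, (r ≤ |x.1| ∨ r ≤ |x.2|) → φ₁ x = 0 := fun x hx => by
    by_contra h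
    exact hz x hx (Or.inl (subset_tsupport _ h))
  have z2 : ∀ x : ℝ × ℝ, (r ≤ |x.1| ∨ r ≤ |x.2|) → φ₂ x = 0 := fun x hx => by
    by_contra h
    exact hz x hx (Or.inr (subset_tsupport _ h))
  have z3 : ∀ x : ℝ × ℝ, x ∉ Icc ((-r, -r) : ℝ × ℝ) (r, r) → dvg φ₁ φ₂ x = 0 := by
    intro x hx
    have h' : r ≤ |x.1| ∨ r ≤ |x.2| := by
      by_contra hcon
      push Not at hcon
      apply hx
      rw [abs_lt, abs_lt] at hcon
      exact ⟨⟨hcon.1.1.le, hcon.2.1.le⟩, ⟨hcon.1.2.le, hcon.2.2.le⟩⟩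
    have h3 := hz x h'
    rw [mem_union, not_or] at h3
    exact H327.dvg_eq_zero h3.1 h3.2
  have d1 : Continuous fun x => fderiv ℝ φ₁ x (1, 0) :=
    (h1.continuous_fderiv (by simp)).clm_apply continuous_const
  have d2 : Continuous fun x => fderiv ℝ φ₂ x (0, 1) :=
    (h2.continuous_fderiv (by simp)).clm_apply continuous_const
  have key := integral_divergence_prod_Icc_of_hasFDerivAt_of_le φ₁ φ₂ (fderiv ℝ φ₁) (fderiv ℝ φ₂)
    (-r, -r) (r, r) ⟨by show -r ≤ r; linarith, by show -r ≤ r; linarith⟩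
    h1.continuous.continuousOn h2.continuous.continuousOn
    (fun x _ => ((h1.differentiable (by simp)) x).hasFDerivAt)
    (fun x _ => ((h2.differentiable (by simp)) x).hasFDerivAt)
    ((d1.add d2).continuousOn.integrableOn_compact isCompact_Icc)
  have h3 : ∫ x, dvg φ₁ φ₂ x = ∫ x in Icc ((-r, -r) : ℝ × ℝ) (r, r), dvg φ₁ φ₂ x :=
    (setIntegral_eq_integral_of_forall_compl_eq_zero z3).symm
  rw [h3]
  refine key.trans ?_
  have a1 : r ≤ |r| := le_abs_self r
  have a2 : r ≤ |-r| := by rw [abs_neg]; exact le_abs_self r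
  simp only [z1 (r, _) (Or.inl a1), z1 (-r, _) (Or.inl a2), z2 (_, r) (Or.inr a1),
    z2 (_, -r) (Or.inr a2), intervalIntegral.integral_zero]
  ring

/-- The part of the charge in a region is smooth, with compact support and neutral. -/
theorem test_prt (hlr : b.xl < b.xr) (hbt : b.yb < b.yt)
    (h1 : ContDiff ℝ ((⊤ : ℕ∞) : WithTop ℕ∞) φ₁) (h2 : ContDiff ℝ ((⊤ : ℕ∞) : WithTop ℕ∞) φ₂)
    (c1 : HasCompactSupport φ₁) (c2 : HasCompactSupport φ₂)
    (hd1 : Disjoint (tsupport φ₁) b.lines) (hd2 : Disjoint (tsupport φ₂) b.lines) (i : Fin 5) :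
    ContDiff ℝ ((⊤ : ℕ∞) : WithTop ℕ∞) (dvg (prt b i φ₁) (prt b i φ₂)) ∧
      HasCompactSupport (dvg (prt b i φ₁) (prt b i φ₂)) ∧
      ∫ x, dvg (prt b i φ₁) (prt b i φ₂) x = 0 := by
  have k1 := contDiff_prt hlr hbt hd1 h1 i
  have k2 := contDiff_prt hlr hbt hd2 h2 i
  have k3 := compact_prt hlr hbt hd1 c1 i
  have k4 := compact_prt hlr hbt hd2 c2 i
  exact ⟨H327.contDiff_dvg k1 k2, H327.hcs_dvg k3 k4, integral_dvg k1 k2 k3 k4⟩

/-- Margins: the position `v` is in the region `i`, at distance at least `κ n` from the lines. -/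
def Mg (b : Box) (κ : ℝ) (n : ℕ) (i : Fin 5) (v : ℤ × ℤ) : Prop :=
  ![v.1 + κ * n ≤ b.xl * n,
    b.xl * n + κ * n ≤ v.1 ∧ b.yt * n + κ * n ≤ v.2,
    b.xr * n + κ * n ≤ v.1 ∧ v.2 + κ * n ≤ b.yt * n,
    b.xl * n + κ * n ≤ v.1 ∧ v.1 + κ * n ≤ b.xr * n ∧ v.2 + κ * n ≤ b.yb * n,
    b.xl * n + κ * n ≤ v.1 ∧ v.1 + κ * n ≤ b.xr * n ∧ b.yb * n + κ * n ≤ v.2 ∧
      v.2 + κ * n ≤ b.yt * n] i

/-- The lattice flow of a part is supported in the region, with margins. -/
theorem fl_prt_mg (hlr : b.xl < b.xr) (hbt : b.yb < b.yt)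
    (c1 : HasCompactSupport φ₁) (c2 : HasCompactSupport φ₂)
    (hd1 : Disjoint (tsupport φ₁) b.lines) (hd2 : Disjoint (tsupport φ₂) b.lines) (i : Fin 5) :
    ∃ κ > 0, ∀ᶠ n : ℕ in atTop, ∀ e, fl (prt b i φ₁) (prt b i φ₂) (1 / n) e ≠ 0 →
      Mg b κ n i (epos e) := by
  have k3 := compact_prt hlr hbt hd1 c1 i
  have k4 := compact_prt hlr hbt hd2 c2 i
  have hsub : tsupport (prt b i φ₁) ∪ tsupport (prt b i φ₂) ⊆ Rg b i :=
    union_subset ((tsupport_prt hlr hbt hd1 i).trans inter_subset_right)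
      ((tsupport_prt hlr hbt hd2 i).trans inter_subset_right)
  obtain ⟨r, hr, hs⟩ := (k3.isCompact.union k4.isCompact).exists_thickening_subset_open
    (isOpen_Rg b i) hsub
  refine ⟨r / 4, by positivity, ?_⟩
  filter_upwards [tendsto_natCast_atTop_atTop.eventually_ge_atTop (4 / r),
    eventually_gt_atTop 0] with n hn hn0 e he
  have hn0' : (0 : ℝ) < n := by exact_mod_cast hn0
  rw [div_le_iff₀ hr] at hn
  obtain ⟨x, hx, a1, a2, a3, a4⟩ := H327.fl_ne (by positivity) he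
  rw [one_div_mul_eq_div, div_le_iff₀ hn0'] at a1 a3
  rw [one_div_mul_eq_div, le_div_iff₀ hn0'] at a2 a4
  have hx' : x ∈ tsupport (prt b i φ₁) ∪ tsupport (prt b i φ₂) :=
    hx.imp (fun h => subset_tsupport _ h) (fun h => subset_tsupport _ h)
  have hq : ∀ s t : ℝ, |s| ≤ r / 2 → |t| ≤ r / 2 → (x.1 + s, x.2 + t) ∈ Rg b i := by
    intro s t h1 h2
    apply hs
    rw [Metric.mem_thickening_iff]
    refine ⟨x, hx', ?_⟩
    rw [Prod.dist_eq, max_lt_iff, Real.dist_eq, Real.dist_eq]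
    simp only [add_sub_cancel_left]
    constructor <;> linarith
  have r2 : |r / 2| ≤ r / 2 := by rw [abs_of_pos (by positivity)]
  have r3 : |-(r / 2)| ≤ r / 2 := by rw [abs_neg]; exact r2
  have q1 := hq (r / 2) (r / 2) r2 r2
  have q2 := hq (-(r / 2)) (-(r / 2)) r3 r3
  have q3 := hq (r / 2) (-(r / 2)) r2 r3
  have q4 := hq (-(r / 2)) (r / 2) r3 r2
  have m1 : ∀ {u v : ℝ}, u < v → u * n < v * n := fun h => mul_lt_mul_of_pos_right h hn0'
  fin_cases i
  · simp only [Rg] at q1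
    have := m1 (show x.1 + r / 2 < b.xl from q1)
    show ((epos e).1 : ℝ) + r / 4 * n ≤ b.xl * n
    nlinarith
  · have e1 := m1 (show b.xl < x.1 + -(r / 2) from q2.1)
    have e2 := m1 (show b.yt < x.2 + -(r / 2) from q2.2)
    refine ⟨?_, ?_⟩
    · show b.xl * n + r / 4 * n ≤ ((epos e).1 : ℝ)
      nlinarith
    · show b.yt * n + r / 4 * n ≤ ((epos e).2 : ℝ)
      nlinarith
  · have e1 := m1 (show b.xr < x.1 + -(r / 2) from q2.1)
    have e2 := m1 (show x.2 + r / 2 < b.yt from q1.2)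
    refine ⟨?_, ?_⟩
    · show b.xr * n + r / 4 * n ≤ ((epos e).1 : ℝ)
      nlinarith
    · show ((epos e).2 : ℝ) + r / 4 * n ≤ b.yt * n
      nlinarith
  · have e1 := m1 (show b.xl < x.1 + -(r / 2) from q2.1)
    have e2 := m1 (show x.1 + r / 2 < b.xr from q1.2.1)
    have e3 := m1 (show x.2 + r / 2 < b.yb from q1.2.2)
    refine ⟨?_, ?_, ?_⟩
    · show b.xl * n + r / 4 * n ≤ ((epos e).1 : ℝ)
      nlinarith
    · show ((epos e).1 : ℝ) + r / 4 * n ≤ b.xr * n
      nlinarith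
    · show ((epos e).2 : ℝ) + r / 4 * n ≤ b.yb * n
      nlinarith
  · have e1 := m1 (show b.xl < x.1 + -(r / 2) from q2.1)
    have e2 := m1 (show x.1 + r / 2 < b.xr from q1.2.1)
    have e3 := m1 (show b.yb < x.2 + -(r / 2) from q2.2.2.1)
    have e4 := m1 (show x.2 + r / 2 < b.yt from q1.2.2.2)
    refine ⟨?_, ?_, ?_, ?_⟩
    · show b.xl * n + r / 4 * n ≤ ((epos e).1 : ℝ)
      nlinarith
    · show ((epos e).1 : ℝ) + r / 4 * n ≤ b.xr * n
      nlinarith
    · show b.yb * n + r / 4 * n ≤ ((epos e).2 : ℝ)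
      nlinarith
    · show ((epos e).2 : ℝ) + r / 4 * n ≤ b.yt * n
      nlinarith

end Vale.Agent.P167.H680
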