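import Vale.Agent.P167.H199.OsW
import Vale.Agent.P167.H825.OsLin
import Vale.Agent.P167.H638.YG6
import Vale.Agent.P167.H592.Ph
import Vale.Agent.P167.H680.Split

/-!
# P167, block 2A, the centre of the legs

The centre is the insertion without cut edges `Y = e^{i h(g)} (e^{i s h(Δψ)} - α)`; it is a
difference of phase insertions (`lin3_YC`) and its reflection norm tends to zero (`centre_os`).
-/

namespace Vale.Agent.P167.H680

open Finset Filter Topology MeasureTheory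
open Vale.Agent.P167.H592
open Vale.Agent.P167.H327 (fl)
open Vale.Agent.P167.H199 (insW Fc phO phF Fs)
open Vale.Agent.P167.H825 (Wall WC gX gY gD gA GDir Sys os Lin3 epos dvg lapl Box alp)
open Vale.Agent.P152 (Edge Ori)

variable {om : Ins → ℂ}

/-! ### flows as insertions -/

/-- A flow, without walls. -/
def flw (c : Ed → ℝ) : WC (Fin 0) := ⟨Fin.elim0, c⟩

theorem flw_S (c : Ed → ℝ) : (flw c).S = ∅ := by simp [WC.S]

theorem flw_ph (c : Ed → ℝ) (e : Ed) (b : Bool) : (flw c).ph e b = c e / 2 := by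
  simp [WC.ph, flw]

theorem flw_jumps (c : Ed → ℝ) : (flw c).jumps = 0 := by
  classical
  unfold WC.jumps
  rw [card_eq_zero]
  ext i
  exact i.elim0

/-- The insertion `exp (i ∑ c e (arrow e))`. -/
noncomputable def fI (c : Ed → ℝ) (hc : (Function.support c).Finite) : LIns := insW (flw c) hc

theorem fI_S (c : Ed → ℝ) (hc : (Function.support c).Finite) : (fI c hc).1.S = ∅ := flw_S c

theorem fI_F (c : Ed → ℝ) (hc : (Function.support c).Finite) (ω : HO (ℤ × ℤ)) :
    (fI c hc).1.F ω = phO (flw c).ph ω := by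
  show ((((√3)⁻¹ ^ (flw c).S.card : ℝ)) : ℂ) * phO (flw c).ph ω = _
  rw [flw_S, card_empty, pow_zero, Complex.ofReal_one, one_mul]

theorem fs_add {c d : Ed → ℝ} (hc : (Function.support c).Finite)
    (hd : (Function.support d).Finite) : (Function.support fun e => c e + d e).Finite :=
  (hc.union hd).subset (Function.support_add c d)

/-- The centre. -/
noncomputable def YC (c d : Ed → ℝ) (hc : (Function.support c).Finite)
    (hd : (Function.support d).Finite) (α : ℝ) : LIns :=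
  ⟨⟨∅, fun ω => (fI c hc).1.F ω * ((fI d hd).1.F ω - α)⟩, by
    obtain ⟨Λ, -, -, h3⟩ := (fI c hc).2
    obtain ⟨Λ', -, -, h3'⟩ := (fI d hd).2
    classical
    refine ⟨Λ ∪ Λ', fun e _ => mem_EdT_univ e, Finset.empty_subset _, fun ω ω' hh => ?_⟩
    show (fI c hc).1.F ω * ((fI d hd).1.F ω - α) = (fI c hc).1.F ω' * ((fI d hd).1.F ω' - α)
    rw [show (fI c hc).1.F ω = (fI c hc).1.F ω' from
        h3 ω ω' fun e he => hh e (Finset.mem_union_left _ he),
      show (fI d hd).1.F ω = (fI d hd).1.F ω' from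
        h3' ω ω' fun e he => hh e (Finset.mem_union_right _ he)]⟩

theorem phO_sum {c d : Ed → ℝ} (hc : (Function.support c).Finite)
    (hd : (Function.support d).Finite) (ω : HO (ℤ × ℤ)) :
    phO (flw fun e => c e + d e).ph ω = phO (flw c).ph ω * phO (flw d).ph ω := by
  rw [← H199.phO_add (H199.fs_ph (W := flw c) hc) (H199.fs_ph (W := flw d) hd)]
  congr 1
  funext e b
  show _ = (flw c).ph e b + (flw d).ph e b
  rw [flw_ph, flw_ph, flw_ph]
  ring

/-- **The centre is a difference of phase insertions.** -/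
theorem lin3_YC (c d : Ed → ℝ) (hc : (Function.support c).Finite)
    (hd : (Function.support d).Finite) (α : ℝ) :
    Lin3 α (YC c d hc hd α) (fI (fun e => c e + d e) (fs_add hc hd)) (fI c hc) where
  s := rfl
  s₁ := fI_S _ _
  s₀ := fI_S _ _
  f ω := by
    show (fI c hc).1.F ω * ((fI d hd).1.F ω - α) = _
    rw [fI_F, fI_F, fI_F, phO_sum hc hd]
    ring

theorem YC_LI {K : Set (ℤ × ℤ)} {c d : Ed → ℝ} (hc : (Function.support c).Finite)
    (hd : (Function.support d).Finite) (α : ℝ) (h1 : ∀ e, c e ≠ 0 → e ∈ EdT K)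
    (h2 : ∀ e, d e ≠ 0 → e ∈ EdT K) : LI K (YC c d hc hd α).1 := by
  classical
  have a1 : LI K (fI c hc).1 := H199.insW_LI _ (by rw [flw_S]; simp) h1
  have a2 : LI K (fI d hd).1 := H199.insW_LI _ (by rw [flw_S]; simp) h2
  obtain ⟨Λ, g1, -, h3⟩ := a1
  obtain ⟨Λ', g1', -, h3'⟩ := a2
  refine ⟨Λ ∪ Λ', fun e he => ?_, Finset.empty_subset _, fun ω ω' hh => ?_⟩
  · rcases mem_union.1 he with he | he
    · exact g1 e he
    · exact g1' e he
  · show (fI c hc).1.F ω * ((fI d hd).1.F ω - α) = (fI c hc).1.F ω' * ((fI d hd).1.F ω' - α)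
    rw [show (fI c hc).1.F ω = (fI c hc).1.F ω' from
        h3 ω ω' fun e he => hh e (Finset.mem_union_left _ he),
      show (fI d hd).1.F ω = (fI d hd).1.F ω' from
        h3' ω ω' fun e he => hh e (Finset.mem_union_right _ he)]

/-- The product of the centre and its mirror image. -/
theorem YC_mir (c d : Ed → ℝ) (hc : (Function.support c).Finite)
    (hd : (Function.support d).Finite) (α : ℝ) (m : ℤ) {E : Finset Ed}
    (h1 : ∀ e ∉ E, c e = 0) (h2 : ∀ e ∉ E, d e = 0) :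
    (YC c d hc hd α * LIns.sh (m • gY.s) (thY (YC c d hc hd α))).1 =
      ⟨∅, fun ω => H638.YG.YI E (flw c).ph (flw d).ph α ω *
        (starRingEnd ℂ) (H638.YG.YI E (flw c).ph (flw d).ph α (H638.YG.RYh m ω))⟩ := by
  have e1 : phO (flw c).ph = phF E (flw c).ph := H199.phO_eq fun e he => by
    funext b
    rw [flw_ph, h1 e he]
    simp
  have e2 : phO (flw d).ph = phF E (flw d).ph := H199.phO_eq fun e he => by
    funext b
    rw [flw_ph, h2 e he]
    simp
  have hF : ∀ ω, (YC c d hc hd α).1.F ω = H638.YG.YI E (flw c).ph (flw d).ph α ω := by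
    intro ω
    show (fI c hc).1.F ω * ((fI d hd).1.F ω - α) = _
    rw [fI_F, fI_F, e1, e2]
    rfl
  rw [thY_eq]
  refine Ins.ext ?_ (funext fun ω => ?_)
  · show (∅ : Finset Ed) ∪ ((∅ : Finset Ed).image _).image _ = ∅
    rw [image_empty, image_empty, union_empty]
  · show (YC c d hc hd α).1.F ω *
      (starRingEnd ℂ) ((YC c d hc hd α).1.F (rY.act (shH (m • gY.s) ω))) = _
    rw [hF, hF]
    have : rY.act (shH (m • gY.s) ω) = H638.YG.RYh m ω := by
      funext e b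
      rcases e with v | v
      · show xor true (ω (Sum.inl ((v.1, 1 - v.2) + (m * 0, m * 2))) (xor false b)) =
          !(ω (Sum.inl (v.1, 2 * m - v.2 + 1)) b)
        have : ((v.1, 1 - v.2) + (m * 0, m * 2) : ℤ × ℤ) = (v.1, 2 * m - v.2 + 1) := by
          apply Prod.ext
          · show v.1 + m * 0 = v.1
            ring
          · show 1 - v.2 + m * 2 = 2 * m - v.2 + 1
            ring
        rw [this]
        simp
      · show xor false (ω (Sum.inr ((v.1, -v.2) + (m * 0, m * 2))) (xor true b)) =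
          ω (Sum.inr (v.1, 2 * m - v.2)) (!b)
        have : ((v.1, -v.2) + (m * 0, m * 2) : ℤ × ℤ) = (v.1, 2 * m - v.2) := by
          apply Prod.ext
          · show v.1 + m * 0 = v.1
            ring
          · show -v.2 + m * 2 = 2 * m - v.2
            ring
        rw [this]
        simp
    rw [this]


/-! ### the sequence of centres -/

section seq

variable {b : Box} {φ₁ φ₂ ψ : ℝ × ℝ → ℝ} {s : ℝ}

theorem fl_fin {φ₁ φ₂ : ℝ × ℝ → ℝ} (c1 : HasCompactSupport φ₁) (c2 : HasCompactSupport φ₂)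
    (n : ℕ) : (Function.support (fl φ₁ φ₂ (1 / n))).Finite := by
  rcases Nat.eq_zero_or_pos n with rfl | hn
  · have : Function.support (fl φ₁ φ₂ (1 / (0 : ℕ))) = ∅ := by
      rw [Function.support_eq_empty_iff]
      funext e
      rcases e with v | v <;> simp [fl]
    rw [this]
    exact Set.finite_empty
  · obtain ⟨R, hR, h⟩ := H327.exists_R c1 c2
    set M : ℤ := ⌈R * n⌉ with hM
    have hfin : (((Finset.Icc (-M) M ×ˢ Finset.Icc (-M) M).image Sum.inl ∪
      (Finset.Icc (-M) M ×ˢ Finset.Icc (-M) M).image Sum.inr : Finset Ed) : Set Ed).Finite :=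
      Finset.finite_toSet _
    refine hfin.subset fun e he => ?_
    have h1 := h n hn e he
    have h2 : nm (epos e) ≤ M := by
      have : (nm (epos e) : ℝ) ≤ M := h1.trans (Int.le_ceil _)
      exact_mod_cast this
    unfold nm at h2
    rw [max_le_iff, abs_le, abs_le] at h2
    rw [Finset.mem_coe, mem_union, mem_image, mem_image]
    rcases e with v | v
    · left
      refine ⟨v, ?_, rfl⟩
      rw [mem_product, Finset.mem_Icc, Finset.mem_Icc]
      exact h2
    · right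
      refine ⟨v, ?_, rfl⟩
      rw [mem_product, Finset.mem_Icc, Finset.mem_Icc]
      exact h2

/-- The flow of the charges in the box. -/
noncomputable def cC (b : Box) (φ₁ φ₂ : ℝ × ℝ → ℝ) (n : ℕ) : Ed → ℝ :=
  fl (prt b 4 φ₁) (prt b 4 φ₂) (1 / n)

/-- The flow of `s Δψ`. -/
noncomputable def dC (ψ : ℝ × ℝ → ℝ) (s : ℝ) (n : ℕ) : Ed → ℝ := fun e =>
  s * fl (fun x => fderiv ℝ ψ x (1, 0)) (fun x => fderiv ℝ ψ x (0, 1)) (1 / n) e

theorem cC_fin (hlr : b.xl < b.xr) (hbt : b.yb < b.yt) (c1 : HasCompactSupport φ₁)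
    (c2 : HasCompactSupport φ₂) (hd1 : Disjoint (tsupport φ₁) b.lines)
    (hd2 : Disjoint (tsupport φ₂) b.lines) (n : ℕ) : (Function.support (cC b φ₁ φ₂ n)).Finite :=
  fl_fin (compact_prt hlr hbt hd1 c1 4) (compact_prt hlr hbt hd2 c2 4) n

theorem dC_fin (cψ : HasCompactSupport ψ) (s : ℝ) (n : ℕ) :
    (Function.support (dC ψ s n)).Finite := by
  refine (fl_fin (cψ.fderiv_apply ℝ (1, 0)) (cψ.fderiv_apply ℝ (0, 1)) n).subset fun e he => ?_
  intro h0
  apply he
  show s * fl (fun x => fderiv ℝ ψ x (1, 0)) (fun x => fderiv ℝ ψ x (0, 1)) (1 / n) e = 0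
  rw [h0, mul_zero]

theorem dv_shift (c : Ed → ℝ) (v : ℤ × ℤ) : H685.dv c v = H825.dv c (v.1 + 1, v.2 + 1) := by
  simp only [H685.dv, H825.dv, add_sub_cancel_right]

theorem fc_eq (F : ℝ × ℝ → ℝ) {δ : ℝ} (hδ : 0 < δ) (v : ℤ × ℤ) :
    H638.YG.fc F δ v = H638.cm F δ (v.1 + 1, v.2 + 1) := by
  unfold H638.YG.fc H638.cm
  rw [H638.cl_eq hδ]
  unfold P152.GFF.S.hcell
  push_cast
  simp only [add_sub_cancel_right]

theorem lapl_eq (ψ : ℝ × ℝ → ℝ) : H638.YG.Lp ψ = lapl ψ := rfl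

/-- The two forms of the constant `α`. -/
theorem al_eq (hsub : tsupport ψ ⊆ {x | b.xl < x.1 ∧ x.1 < b.xr ∧ b.yb < x.2 ∧ x.2 < b.yt})
    (hlr : b.xl < b.xr) (hbt : b.yb < b.yt)
    (hd1 : Disjoint (tsupport φ₁) b.lines) (hd2 : Disjoint (tsupport φ₂) b.lines) :
    H638.YG.al (3 / Real.pi) s (dvg (prt b 4 φ₁) (prt b 4 φ₂)) ψ = alp (dvg φ₁ φ₂) ψ s := by
  have h1 : ∀ x, dvg (prt b 4 φ₁) (prt b 4 φ₂) x * ψ x = dvg φ₁ φ₂ x * ψ x := by
    intro x
    rw [dvg_prt hlr hbt hd1 hd2]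
    by_cases hx : x ∈ Rg b 4
    · rw [prt_of_mem hx]
    · have : ψ x = 0 := by
        by_contra hne
        exact hx (hsub (subset_tsupport _ hne))
      rw [this, mul_zero, mul_zero]
  unfold H638.YG.al alp H638.YG.En H638.YG.dd
  rw [integral_congr_ae (ae_of_all _ h1)]
  congr 1
  ring

/-- **The reflection norm of the centre tends to zero.** -/
theorem centre_os (hom : IsOm (√3) om) (hlr : b.xl < b.xr) (hbt : b.yb < b.yt)
    (h1 : ContDiff ℝ ((⊤ : ℕ∞) : WithTop ℕ∞) φ₁) (h2 : ContDiff ℝ ((⊤ : ℕ∞) : WithTop ℕ∞) φ₂)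
    (hψ : ContDiff ℝ ((⊤ : ℕ∞) : WithTop ℕ∞) ψ)
    (c1 : HasCompactSupport φ₁) (c2 : HasCompactSupport φ₂) (cψ : HasCompactSupport ψ)
    (hsub : tsupport ψ ⊆ {x | b.xl < x.1 ∧ x.1 < b.xr ∧ b.yb < x.2 ∧ x.2 < b.yt})
    (hd1 : Disjoint (tsupport φ₁) b.lines) (hd2 : Disjoint (tsupport φ₂) b.lines) (s : ℝ)
    {m : ℕ → ℤ} {y' : ℝ} (hm : Tendsto (fun n => (m n : ℝ) / n) atTop (𝓝 y')) (hy : y' < b.yb) :
    Tendsto (fun n => os (sysOm om) (fun m A => LIns.sh (m • gY.s) (thY A)) (m n)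
      (YC (cC b φ₁ φ₂ n) (dC ψ s n) (cC_fin hlr hbt c1 c2 hd1 hd2 n) (dC_fin cψ s n)
        (alp (dvg φ₁ φ₂) ψ s))) atTop (𝓝 0) := by
  classical
  rw [← tendsto_add_atTop_iff_nat 1]
  have hg := test_prt hlr hbt h1 h2 c1 c2 hd1 hd2 4
  set E : ℕ → Finset Ed := fun n => (cC_fin hlr hbt c1 c2 hd1 hd2 (n + 1)).toFinset ∪
    (dC_fin cψ s (n + 1)).toFinset with hE
  have e1 : ∀ n, ∀ e ∉ E n, cC b φ₁ φ₂ (n + 1) e = 0 := by
    intro n e he
    by_contra hne
    exact he (mem_union_left _ ((Set.Finite.mem_toFinset _).2 hne))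
  have e2 : ∀ n, ∀ e ∉ E n, dC ψ s (n + 1) e = 0 := by
    intro n e he
    by_contra hne
    exact he (mem_union_right _ ((Set.Finite.mem_toFinset _).2 hne))
  have htot : ∀ c : Ed → ℝ, H638.YG.tot (flw c).ph = c := by
    intro c
    funext e
    unfold H638.YG.tot
    rw [flw_ph, flw_ph]
    ring
  have hpos : ∀ n : ℕ, (0 : ℝ) < 1 / ((n + 1 : ℕ) : ℝ) := fun n => by positivity
  have hδ : Tendsto (fun n : ℕ => 1 / ((n + 1 : ℕ) : ℝ)) atTop (𝓝[>] 0) := by
    rw [tendsto_nhdsWithin_iff]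
    refine ⟨?_, Eventually.of_forall fun n => hpos n⟩
    have := tendsto_one_div_add_atTop_nhds_zero_nat (𝕜 := ℝ)
    simpa using this
  have hψd1 : ContDiff ℝ ((⊤ : ℕ∞) : WithTop ℕ∞) fun x => fderiv ℝ ψ x (1, 0) :=
    (hψ.fderiv_right (m := ((⊤ : ℕ∞) : WithTop ℕ∞)) (by simp)).clm_apply contDiff_const
  have hψd2 : ContDiff ℝ ((⊤ : ℕ∞) : WithTop ℕ∞) fun x => fderiv ℝ ψ x (0, 1) :=
    (hψ.fderiv_right (m := ((⊤ : ℕ∞) : WithTop ℕ∞)) (by simp)).clm_apply contDiff_const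
  have key := H638.YG.yg_om hom (g := dvg (prt b 4 φ₁) (prt b 4 φ₂)) (ψ := ψ)
    ⟨hg.1, hg.2.1, hg.2.2⟩ hψ cψ (yb := b.yb) (y' := y') (fun x hx => ?_) (fun x hx => ?_) hy s
    (m := fun n => m (n + 1)) (δ := fun n => 1 / ((n + 1 : ℕ) : ℝ)) hδ ?_ (E := E)
    (A := fun n => (flw (cC b φ₁ φ₂ (n + 1))).ph) (B := fun n => (flw (dC ψ s (n + 1))).ph)
    (fun n e he => by rw [htot]; exact e1 n e he) (fun n e he => by rw [htot]; exact e2 n e he)
    (fun n v => ?_) (fun n v => ?_)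
  · have h3 := (Complex.continuous_re.tendsto 0).comp key
    rw [Complex.zero_re] at h3
    refine h3.congr fun n => ?_
    show (om _).re = _
    unfold os
    show _ = (om _).re
    rw [YC_mir _ _ _ _ _ _ (e1 n) (e2 n), al_eq hsub hlr hbt hd1 hd2]
  · rw [dvg_prt hlr hbt hd1 hd2] at hx
    by_contra hcon
    apply hx
    refine prt_of_notMem fun hm => hcon ?_
    exact le_of_lt hm.2.2.1
  · exact (hsub (subset_tsupport _ hx)).2.2.1.le
  · have h4 := hm.comp (tendsto_add_atTop_nat 1)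
    refine h4.congr fun n => ?_
    show (m (n + 1) : ℝ) / ((n + 1 : ℕ) : ℝ) = _
    rw [mul_one_div]
  · rw [htot, dv_shift, fc_eq _ (hpos n)]
    exact H327.dv_fl (contDiff_prt hlr hbt hd1 h1 4) (contDiff_prt hlr hbt hd2 h2 4) (hpos n) _
  · rw [htot, dv_shift, fc_eq _ (hpos n)]
    have h5 : H825.dv (dC ψ s (n + 1)) (v.1 + 1, v.2 + 1) =
        s * H825.dv (fl (fun x => fderiv ℝ ψ x (1, 0)) (fun x => fderiv ℝ ψ x (0, 1))
          (1 / ((n + 1 : ℕ) : ℝ))) (v.1 + 1, v.2 + 1) := by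
      simp only [H825.dv, dC]
      ring
    rw [h5, H327.dv_fl hψd1 hψd2 (hpos n)]
    rfl

end seq

end Vale.Agent.P167.H680
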