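import Vale.Agent.P167.H825.Defs2A

/-!
# P167, block DISC: lattice discretisation of a smooth flow

`cfl φ₁ φ₂ δ` is the flow through the sides of the cells of mesh `δ`; its charge is exactly the cell
mass of the divergence.
-/

namespace Vale.Agent.P167.H680

open Set Filter Topology MeasureTheory
open Vale.Agent.P167.H825 (dvg lapl dv epos)
open Vale.Agent.P167.H638 (cm cl)

/-- The lattice flow of `(φ₁, φ₂)`. -/
noncomputable def cfl (φ₁ φ₂ : ℝ × ℝ → ℝ) (δ : ℝ) : Ed → ℝ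
  | Sum.inl v => -∫ x in (δ * v.1)..(δ * (v.1 + 1)), φ₂ (x, δ * v.2)
  | Sum.inr v => ∫ y in (δ * v.2)..(δ * (v.2 + 1)), φ₁ (δ * v.1, y)

variable {φ₁ φ₂ : ℝ × ℝ → ℝ} {δ : ℝ}

/-- The charge of the lattice flow is the cell mass of the divergence. -/
theorem dv_cfl (hδ : 0 < δ) (h1 : ContDiff ℝ ((⊤ : ℕ∞) : WithTop ℕ∞) φ₁)
    (h2 : ContDiff ℝ ((⊤ : ℕ∞) : WithTop ℕ∞) φ₂) (z : ℤ × ℤ) :
    dv (cfl φ₁ φ₂ δ) z = cm (dvg φ₁ φ₂) δ z := by
  have c1 : Continuous fun x => fderiv ℝ φ₁ x (1, 0) :=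
    (h1.continuous_fderiv (by simp)).clm_apply continuous_const
  have c2 : Continuous fun x => fderiv ℝ φ₂ x (0, 1) :=
    (h2.continuous_fderiv (by simp)).clm_apply continuous_const
  have hd1 : ∀ x, HasFDerivAt φ₁ (fderiv ℝ φ₁ x) x := fun x =>
    ((h1.differentiable (by simp)) x).hasFDerivAt
  have hd2 : ∀ x, HasFDerivAt φ₂ (fderiv ℝ φ₂ x) x := fun x =>
    ((h2.differentiable (by simp)) x).hasFDerivAt
  set a : ℝ × ℝ := (δ * ((z.1 : ℝ) - 1), δ * ((z.2 : ℝ) - 1)) with ha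
  set b : ℝ × ℝ := (δ * z.1, δ * z.2) with hb
  have hab : a ≤ b := by
    refine ⟨?_, ?_⟩
    · show δ * ((z.1 : ℝ) - 1) ≤ δ * z.1
      nlinarith
    · show δ * ((z.2 : ℝ) - 1) ≤ δ * z.2
      nlinarith
  have key := integral_divergence_prod_Icc_of_hasFDerivAt_of_le φ₁ φ₂ (fderiv ℝ φ₁) (fderiv ℝ φ₂)
    a b hab h1.continuous.continuousOn h2.continuous.continuousOn (fun x _ => hd1 x)
    (fun x _ => hd2 x) ((c1.add c2).continuousOn.integrableOn_compact isCompact_Icc)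
  have hcl : ∫ x in cl δ z, dvg φ₁ φ₂ x = ∫ x in Icc a b, fderiv ℝ φ₁ x (1, 0) + fderiv ℝ φ₂ x (0, 1) := by
    rw [H638.cl_eq hδ, Icc_prod_eq]
    refine setIntegral_congr_set ?_
    rw [Measure.volume_eq_prod]
    exact Measure.set_prod_ae_eq Ico_ae_eq_Icc Ico_ae_eq_Icc
  unfold cm
  rw [hcl, key]
  simp only [dv, cfl, ha, hb]
  have e1 : ((z.1 - 1 : ℤ) : ℝ) + 1 = z.1 := by push_cast; ring
  have e2 : ((z.2 - 1 : ℤ) : ℝ) + 1 = z.2 := by push_cast; ring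
  rw [e1, e2]
  push_cast
  ring


/-- Bound of the flow. -/
theorem cfl_le (hδ : 0 < δ) {B : ℝ} (h1 : ∀ x, |φ₁ x| ≤ B) (h2 : ∀ x, |φ₂ x| ≤ B) (e : Ed) :
    |cfl φ₁ φ₂ δ e| ≤ B * δ := by
  rcases e with v | v
  · show |-∫ x in (δ * v.1)..(δ * (v.1 + 1)), φ₂ (x, δ * v.2)| ≤ _
    rw [abs_neg]
    have h := intervalIntegral.norm_integral_le_of_norm_le_const (a := δ * v.1)
      (b := δ * (v.1 + 1)) (f := fun x => φ₂ (x, δ * v.2)) (C := B) fun x _ => h2 _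
    rwa [Real.norm_eq_abs, show δ * (v.1 + 1) - δ * v.1 = δ by ring, abs_of_pos hδ] at h
  · show |∫ y in (δ * v.2)..(δ * (v.2 + 1)), φ₁ (δ * v.1, y)| ≤ _
    have h := intervalIntegral.norm_integral_le_of_norm_le_const (a := δ * v.2)
      (b := δ * (v.2 + 1)) (f := fun y => φ₁ (δ * v.1, y)) (C := B) fun x _ => h1 _
    rwa [Real.norm_eq_abs, show δ * (v.2 + 1) - δ * v.2 = δ by ring, abs_of_pos hδ] at h

/-- Bound of a cell mass. -/
theorem abs_cm_le {F : ℝ × ℝ → ℝ} {M : ℝ} (hM : ∀ x, |F x| ≤ M) (hδ : 0 < δ) (s : ℤ × ℤ) :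
    |cm F δ s| ≤ M * δ ^ 2 := by
  have hv : volume.real (cl δ s) = δ ^ 2 := by
    rw [Measure.real, H638.vol_cl hδ, ENNReal.toReal_ofReal (by positivity)]
  have hfin : volume (cl δ s) < ⊤ := by rw [H638.vol_cl hδ]; exact ENNReal.ofReal_lt_top
  have h := norm_setIntegral_le_of_norm_le_const (μ := volume) (f := F) (C := M) hfin
    fun x _ => hM x
  rwa [hv, Real.norm_eq_abs] at h

/-- Support of the flow. -/
theorem cfl_ne (hδ : 0 < δ) {e : Ed} (h : cfl φ₁ φ₂ δ e ≠ 0) :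
    ∃ x : ℝ × ℝ, (φ₁ x ≠ 0 ∨ φ₂ x ≠ 0) ∧ δ * (epos e).1 ≤ x.1 ∧ x.1 ≤ δ * ((epos e).1 + 1) ∧
      δ * (epos e).2 ≤ x.2 ∧ x.2 ≤ δ * ((epos e).2 + 1) := by
  by_contra hcon
  push Not at hcon
  apply h
  rcases e with v | v
  · show -∫ x in (δ * v.1)..(δ * (v.1 + 1)), φ₂ (x, δ * v.2) = 0
    rw [neg_eq_zero]
    refine intervalIntegral.integral_zero_ae (ae_of_all _ fun x hx => ?_)
    rw [uIoc_of_le (by nlinarith)] at hx
    by_contra hne
    have := hcon (x, δ * v.2) (Or.inr hne) hx.1.le hx.2 le_rfl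
    have h2 : δ * v.2 ≤ δ * ((v.2 : ℝ) + 1) := by nlinarith
    exact absurd h2 (not_le.2 this)
  · show ∫ y in (δ * v.2)..(δ * (v.2 + 1)), φ₁ (δ * v.1, y) = 0
    refine intervalIntegral.integral_zero_ae (ae_of_all _ fun y hy => ?_)
    rw [uIoc_of_le (by nlinarith)] at hy
    by_contra hne
    have h2 : δ * v.1 ≤ δ * ((v.1 : ℝ) + 1) := by nlinarith
    have := hcon (δ * v.1, y) (Or.inl hne) le_rfl h2 hy.1.le
    exact absurd hy.2 (not_le.2 this)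

theorem cfl_add {a₁ a₂ b₁ b₂ : ℝ × ℝ → ℝ} (ha₁ : Continuous a₁) (ha₂ : Continuous a₂)
    (hb₁ : Continuous b₁) (hb₂ : Continuous b₂) (δ : ℝ) (e : Ed) :
    cfl (fun x => a₁ x + b₁ x) (fun x => a₂ x + b₂ x) δ e = cfl a₁ a₂ δ e + cfl b₁ b₂ δ e := by
  rcases e with v | v
  · show -∫ x in (δ * v.1)..(δ * (v.1 + 1)), (a₂ (x, δ * v.2) + b₂ (x, δ * v.2)) =
      -(∫ x in (δ * v.1)..(δ * (v.1 + 1)), a₂ (x, δ * v.2)) +
      -∫ x in (δ * v.1)..(δ * (v.1 + 1)), b₂ (x, δ * v.2)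
    rw [intervalIntegral.integral_add]
    · ring
    · exact (ha₂.comp (by fun_prop)).intervalIntegrable _ _
    · exact (hb₂.comp (by fun_prop)).intervalIntegrable _ _
  · show ∫ y in (δ * v.2)..(δ * (v.2 + 1)), (a₁ (δ * v.1, y) + b₁ (δ * v.1, y)) =
      (∫ y in (δ * v.2)..(δ * (v.2 + 1)), a₁ (δ * v.1, y)) +
      ∫ y in (δ * v.2)..(δ * (v.2 + 1)), b₁ (δ * v.1, y)
    rw [intervalIntegral.integral_add]
    · exact (ha₁.comp (by fun_prop)).intervalIntegrable _ _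
    · exact (hb₁.comp (by fun_prop)).intervalIntegrable _ _

theorem cfl_smul (s : ℝ) (a₁ a₂ : ℝ × ℝ → ℝ) (δ : ℝ) (e : Ed) :
    cfl (fun x => s * a₁ x) (fun x => s * a₂ x) δ e = s * cfl a₁ a₂ δ e := by
  rcases e with v | v
  · show -∫ x in (δ * v.1)..(δ * (v.1 + 1)), s * a₂ (x, δ * v.2) =
      s * -∫ x in (δ * v.1)..(δ * (v.1 + 1)), a₂ (x, δ * v.2)
    rw [intervalIntegral.integral_const_mul]
    ring
  · show ∫ y in (δ * v.2)..(δ * (v.2 + 1)), s * a₁ (δ * v.1, y) =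
      s * ∫ y in (δ * v.2)..(δ * (v.2 + 1)), a₁ (δ * v.1, y)
    rw [intervalIntegral.integral_const_mul]

theorem dv_add (a b : Ed → ℝ) (z : ℤ × ℤ) : dv (fun e => a e + b e) z = dv a z + dv b z := by
  simp only [dv]
  ring

theorem dv_smul (s : ℝ) (a : Ed → ℝ) (z : ℤ × ℤ) : dv (fun e => s * a e) z = s * dv a z := by
  simp only [dv]
  ring

/-- Boundedness of the flow and of its charge. -/
theorem exists_bound (h1 : ContDiff ℝ ((⊤ : ℕ∞) : WithTop ℕ∞) φ₁)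
    (h2 : ContDiff ℝ ((⊤ : ℕ∞) : WithTop ℕ∞) φ₂) (c1 : HasCompactSupport φ₁)
    (c2 : HasCompactSupport φ₂) : ∃ B : ℝ, 0 < B ∧ ∀ n : ℕ, 0 < n →
      (∀ e, |cfl φ₁ φ₂ (1 / n) e| ≤ B / n) ∧ ∀ z, |dv (cfl φ₁ φ₂ (1 / n)) z| ≤ B / n ^ 2 := by
  have d1 : Continuous fun x => fderiv ℝ φ₁ x (1, 0) :=
    (h1.continuous_fderiv (by simp)).clm_apply continuous_const
  have d2 : Continuous fun x => fderiv ℝ φ₂ x (0, 1) :=
    (h2.continuous_fderiv (by simp)).clm_apply continuous_const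
  obtain ⟨B1, hB1⟩ := h1.continuous.bounded_above_of_compact_support c1
  obtain ⟨B2, hB2⟩ := h2.continuous.bounded_above_of_compact_support c2
  obtain ⟨B3, hB3⟩ := d1.bounded_above_of_compact_support (c1.fderiv_apply ℝ (1, 0))
  obtain ⟨B4, hB4⟩ := d2.bounded_above_of_compact_support (c2.fderiv_apply ℝ (0, 1))
  have p1 : 0 ≤ B1 := (norm_nonneg _).trans (hB1 0)
  have p2 : 0 ≤ B2 := (norm_nonneg _).trans (hB2 0)
  have p3 : 0 ≤ B3 := (norm_nonneg _).trans (hB3 0)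
  have p4 : 0 ≤ B4 := (norm_nonneg _).trans (hB4 0)
  refine ⟨B1 + B2 + B3 + B4 + 1, by positivity, fun n hn => ?_⟩
  have hn' : (0 : ℝ) < n := by exact_mod_cast hn
  have hδ : (0 : ℝ) < 1 / n := by positivity
  constructor
  · intro e
    have h := cfl_le hδ (B := B1 + B2 + B3 + B4 + 1) (φ₁ := φ₁) (φ₂ := φ₂)
      (fun x => (hB1 x).trans (by linarith)) (fun x => (hB2 x).trans (by linarith)) e
    rwa [mul_one_div] at h
  · intro z
    rw [dv_cfl hδ h1 h2]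
    have h := abs_cm_le (F := dvg φ₁ φ₂) (M := B1 + B2 + B3 + B4 + 1) (fun x => ?_) hδ z
    · rwa [div_pow, one_pow, mul_one_div] at h
    · refine (abs_add_le _ _).trans ?_
      have := hB3 x
      have := hB4 x
      rw [Real.norm_eq_abs] at *
      linarith


/-! ### flows inside the domain -/

open Vale.Agent.P167.H825 (domP enl FlowIn)

theorem isOpen_domP (S₀ : Finset (ℤ × ℤ)) : IsOpen (domP S₀) := by
  have h : Continuous fun x : ℝ × ℝ => (⟨x.1, x.2⟩ : ℂ) := by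
    have h2 : (fun x : ℝ × ℝ => (⟨x.1, x.2⟩ : ℂ)) = fun x => (x.1 : ℂ) + (x.2 : ℂ) * Complex.I := by
      funext x
      apply Complex.ext <;> simp
    rw [h2]
    fun_prop
  exact isOpen_interior.preimage h

/-- The square `v` of the enlargement. -/
theorem mem_enl {S₀ : Finset (ℤ × ℤ)} {n : ℕ} (hn : 0 < n) {v : ℤ × ℤ}
    (h : ((v.1 : ℝ) / n, (v.2 : ℝ) / n) ∈ domP S₀) : v ∈ enl S₀ n := by
  have hn' : (0 : ℝ) < n := by exact_mod_cast hn
  have hnz : (0 : ℤ) < n := by exact_mod_cast hn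
  have h1 : (⟨(v.1 : ℝ) / n, (v.2 : ℝ) / n⟩ : ℂ) ∈ interior (E6.region 1 S₀) := h
  obtain ⟨r, hr, hb⟩ := Metric.isOpen_iff.1 isOpen_interior _ h1
  set s : ℤ × ℤ := (v.1 / n, v.2 / n) with hs
  have e1 : (v.1 : ℝ) = n * s.1 + (v.1 % n : ℤ) := by
    exact_mod_cast (Int.mul_ediv_add_emod v.1 n).symm
  have e2 : (v.2 : ℝ) = n * s.2 + (v.2 % n : ℤ) := by
    exact_mod_cast (Int.mul_ediv_add_emod v.2 n).symm
  have m1 : (0 : ℝ) ≤ (v.1 % n : ℤ) := by exact_mod_cast Int.emod_nonneg _ hnz.ne'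
  have m2 : (0 : ℝ) ≤ (v.2 % n : ℤ) := by exact_mod_cast Int.emod_nonneg _ hnz.ne'
  have m1' : ((v.1 % n : ℤ) : ℝ) ≤ n - 1 := by
    have := Int.emod_lt_of_pos v.1 hnz
    have h2 : v.1 % n ≤ n - 1 := by omega
    exact_mod_cast h2
  have m2' : ((v.2 % n : ℤ) : ℝ) ≤ n - 1 := by
    have := Int.emod_lt_of_pos v.2 hnz
    have h2 : v.2 % n ≤ n - 1 := by omega
    exact_mod_cast h2
  set t : ℝ := min (r / 4) (1 / (2 * n)) with ht
  have t0 : 0 < t := by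
    rw [ht]
    exact lt_min (by positivity) (by positivity)
  have t1 : t ≤ r / 4 := min_le_left _ _
  have t2 : t ≤ 1 / (2 * n) := min_le_right _ _
  have t3 : t < 1 / n := t2.trans_lt (by
    rw [div_lt_div_iff₀ (by positivity) hn']
    linarith)
  have f1 : (s.1 : ℝ) ≤ v.1 / n := by
    rw [le_div_iff₀ hn', e1]
    nlinarith
  have f2 : (s.2 : ℝ) ≤ v.2 / n := by
    rw [le_div_iff₀ hn', e2]
    nlinarith
  have g1 : (v.1 : ℝ) / n + 1 / n ≤ s.1 + 1 := by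
    rw [← add_div, div_le_iff₀ hn', e1]
    nlinarith
  have g2 : (v.2 : ℝ) / n + 1 / n ≤ s.2 + 1 := by
    rw [← add_div, div_le_iff₀ hn', e2]
    nlinarith
  have hz : (⟨(v.1 : ℝ) / n + t, (v.2 : ℝ) / n + t⟩ : ℂ) ∈ interior (E6.region 1 S₀) := by
    apply hb
    rw [mem_ball_iff_norm]
    have : (⟨(v.1 : ℝ) / n + t, (v.2 : ℝ) / n + t⟩ : ℂ) - ⟨(v.1 : ℝ) / n, (v.2 : ℝ) / n⟩ =
        ⟨t, t⟩ := by
      apply Complex.ext <;> simp
    rw [this]
    refine (Complex.norm_le_abs_re_add_abs_im _).trans_lt ?_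
    show |t| + |t| < r
    rw [abs_of_pos t0]
    linarith
  obtain ⟨f, hf, a1, a2, a3, a4⟩ := interior_subset hz
  simp only [one_mul] at a1 a2 a3 a4
  have b1 : f.1 = s.1 := by
    have c1 : (f.1 : ℝ) < s.1 + 1 := by linarith
    have c2 : (s.1 : ℝ) < f.1 + 1 := by linarith
    have c1' : f.1 < s.1 + 1 := by exact_mod_cast c1
    have c2' : s.1 < f.1 + 1 := by exact_mod_cast c2
    omega
  have b2 : f.2 = s.2 := by
    have c1 : (f.2 : ℝ) < s.2 + 1 := by linarith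
    have c2 : (s.2 : ℝ) < f.2 + 1 := by linarith
    have c1' : f.2 < s.2 + 1 := by exact_mod_cast c1
    have c2' : s.2 < f.2 + 1 := by exact_mod_cast c2
    omega
  have hfs : f = s := Prod.ext b1 b2
  rw [hfs] at hf
  unfold enl
  rw [Finset.mem_biUnion]
  refine ⟨s, hf, ?_⟩
  rw [Finset.mem_image]
  refine ⟨((v.1 % n).toNat, (v.2 % n).toNat), ?_, ?_⟩
  · rw [Finset.mem_product, Finset.mem_range, Finset.mem_range]
    have := Int.emod_nonneg v.1 hnz.ne'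
    have := Int.emod_nonneg v.2 hnz.ne'
    have := Int.emod_lt_of_pos v.1 hnz
    have := Int.emod_lt_of_pos v.2 hnz
    constructor
    · show (v.1 % n).toNat < n
      omega
    · show (v.2 % n).toNat < n
      omega
  · apply Prod.ext
    · show (n : ℤ) * s.1 + ((v.1 % n).toNat : ℤ) = v.1
      rw [Int.toNat_of_nonneg (Int.emod_nonneg _ hnz.ne')]
      exact Int.mul_ediv_add_emod v.1 n
    · show (n : ℤ) * s.2 + ((v.2 % n).toNat : ℤ) = v.2
      rw [Int.toNat_of_nonneg (Int.emod_nonneg _ hnz.ne')]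
      exact Int.mul_ediv_add_emod v.2 n

/-- Support of the flow, metric form: near `e` (at scale `n`) there is a point of the support. -/
theorem cfl_ne_dist {n : ℕ} (hn : 0 < n) {e : Ed} (h : cfl φ₁ φ₂ (1 / n) e ≠ 0) :
    ∃ x ∈ tsupport φ₁ ∪ tsupport φ₂,
      dist (((epos e).1 : ℝ) / n, ((epos e).2 : ℝ) / n) x ≤ 1 / n := by
  have hn' : (0 : ℝ) < n := by exact_mod_cast hn
  obtain ⟨x, hx, a1, a2, a3, a4⟩ := cfl_ne (by positivity) h
  refine ⟨x, ?_, ?_⟩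
  · rcases hx with h | h
    · exact Or.inl (subset_tsupport _ h)
    · exact Or.inr (subset_tsupport _ h)
  · rw [Prod.dist_eq, max_le_iff, Real.dist_eq, Real.dist_eq, abs_le, abs_le]
    have e1 : (1 / (n : ℝ)) * ((epos e).1 : ℝ) = (epos e).1 / n := by ring
    have e2 : (1 / (n : ℝ)) * ((epos e).2 : ℝ) = (epos e).2 / n := by ring
    have e3 : (1 / (n : ℝ)) * (((epos e).1 : ℝ) + 1) = (epos e).1 / n + 1 / n := by ring
    have e4 : (1 / (n : ℝ)) * (((epos e).2 : ℝ) + 1) = (epos e).2 / n + 1 / n := by ring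
    rw [e1] at a1
    rw [e2] at a3
    rw [e3] at a2
    rw [e4] at a4
    have : (0 : ℝ) < 1 / n := by positivity
    refine ⟨⟨?_, ?_⟩, ?_, ?_⟩ <;> simp only <;> linarith

/-- The lattice flow of a smooth flow with compact support in the polygon is a flow in the interior
of the enlargement. -/
theorem flowIn {S₀ : Finset (ℤ × ℤ)} (h1 : ContDiff ℝ ((⊤ : ℕ∞) : WithTop ℕ∞) φ₁)
    (h2 : ContDiff ℝ ((⊤ : ℕ∞) : WithTop ℕ∞) φ₂) (c1 : HasCompactSupport φ₁)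
    (c2 : HasCompactSupport φ₂) (s1 : tsupport φ₁ ⊆ domP S₀) (s2 : tsupport φ₂ ⊆ domP S₀) :
    ∃ κ B : ℝ, 0 < κ ∧ 0 < B ∧
      ∀ᶠ n : ℕ in atTop, FlowIn (enl S₀ n) κ B n (cfl φ₁ φ₂ (1 / n)) := by
  obtain ⟨B, hB, hb⟩ := exists_bound h1 h2 c1 c2
  obtain ⟨r, hr, hs⟩ := (c1.isCompact.union c2.isCompact).exists_thickening_subset_open
    (isOpen_domP S₀) (union_subset s1 s2)
  refine ⟨r / 2, B, by positivity, hB, ?_⟩
  obtain ⟨N, hN⟩ := exists_nat_gt (2 / r)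
  filter_upwards [eventually_gt_atTop (max N 0)] with n hn
  have hn0 : 0 < n := (le_max_right _ _).trans_lt hn
  have hn' : (0 : ℝ) < n := by exact_mod_cast hn0
  have hnN : (2 / r : ℝ) < n := hN.trans (by exact_mod_cast (le_max_left _ _).trans_lt hn)
  refine ⟨fun e he v hv => mem_enl hn0 (hs ?_), (hb n hn0).1, (hb n hn0).2⟩
  obtain ⟨x, hx, hd⟩ := cfl_ne_dist hn0 he
  rw [Metric.mem_thickening_iff]
  refine ⟨x, hx, ?_⟩
  have h3 : dist (((v.1 : ℝ) / n, (v.2 : ℝ) / n) : ℝ × ℝ)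
      (((epos e).1 : ℝ) / n, ((epos e).2 : ℝ) / n) ≤ r / 2 := by
    have h4 : ((max |v.1 - (epos e).1| |v.2 - (epos e).2| : ℤ) : ℝ) ≤ r / 2 * n := hv
    rw [Int.cast_max, max_le_iff, Int.cast_abs, Int.cast_abs] at h4
    push_cast at h4
    rw [Prod.dist_eq, max_le_iff, Real.dist_eq, Real.dist_eq]
    simp only
    rw [← sub_div, ← sub_div, abs_div, abs_div, abs_of_pos hn', div_le_iff₀ hn', div_le_iff₀ hn']
    exact h4
  have h5 : 1 / (n : ℝ) < r / 2 := by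
    rw [div_lt_div_iff₀ hn' (by norm_num)]
    rw [div_lt_iff₀ hr] at hnN
    linarith
  calc _ ≤ _ + _ := dist_triangle _ _ _
    _ < r := by linarith

end Vale.Agent.P167.H680
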