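import Vale.Agent.P167.H680.Gam

/-!
# P167, block 2A: the six legs for a polygon, a box and a flow
-/

namespace Vale.Agent.P167.H680

open Finset Filter Topology MeasureTheory
open Vale.Agent.P167.H592
open Vale.Agent.P167.H327 (fl)
open Vale.Agent.P167.H825 (epos dvg Box dv FlowIn enl domP alp lapl Lin3 WC Grp PW HOS
  pdir bsite OSb os gX gY gD gA)
open Vale.Agent.P167.H199 (Fc insW GI grp mks KB bN Gen)
open Vale.Agent.P167.E6 (IsPolygon Encloses dir)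

variable {l : ℕ} {p : ZMod l → ℤ × ℤ} {S₀ : Finset (ℤ × ℤ)} {b : Box} {φ₁ φ₂ ψ : ℝ × ℝ → ℝ}
  {tp : ℝ}

/-- The centre group is a flow without walls. -/
theorem insW_grp4 (he : IsEmpty (GI p b tp 4)) (n d : ℕ) {c : Ed → ℝ}
    (hc : (Function.support c).Finite) :
    insW (grp p b tp n d 4 c) hc = fI c hc :=
  H199.insW_empty (w := (grp p b tp n d 4 c).w) (w' := (flw c).w) hc hc

/-- The groups. -/
noncomputable def gam (p : ZMod l → ℤ × ℤ) (h : Dat S₀ b φ₁ φ₂ ψ) (tp s δ : ℝ)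
    (he : IsEmpty (GI p b tp 4)) : Grp (fun r => GI p b tp r) where
  G r n := grp p b tp n ⌊δ * n⌋₊ r (pf b φ₁ φ₂ n r)
  hc r n := h.pf_fin n r
  G1 n := grp p b tp n ⌊δ * n⌋₊ 4 (pf1 b φ₁ φ₂ ψ s n 4)
  hc1 n := h.pf1_fin s n 4
  α := alp (dvg φ₁ φ₂) ψ s
  g r n := if r = 4 then YC (pf b φ₁ φ₂ n 4) (dC ψ s n) (h.pf_fin n 4) (h.dC_fin s n)
    (alp (dvg φ₁ φ₂) ψ s) else insW (grp p b tp n ⌊δ * n⌋₊ r (pf b φ₁ φ₂ n r)) (h.pf_fin n r)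
  hg r hr n := if_neg hr
  hg4 n := by
    have key := lin3_YC (pf b φ₁ φ₂ n 4) (dC ψ s n) (h.pf_fin n 4) (h.dC_fin s n)
      (alp (dvg φ₁ φ₂) ψ s)
    have e1 : insW (grp p b tp n ⌊δ * n⌋₊ 4 (pf1 b φ₁ φ₂ ψ s n 4)) (h.pf1_fin s n 4) =
        fI (fun e => pf b φ₁ φ₂ n 4 e + dC ψ s n e) (fs_add (h.pf_fin n 4) (h.dC_fin s n)) := by
      rw [insW_grp4 he]
      congr 1
    rw [if_pos rfl, e1, insW_grp4 he]
    exact key
  hj n := rfl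

variable {h : Dat S₀ b φ₁ φ₂ ψ} {s δ : ℝ} {he : IsEmpty (GI p b tp 4)}

theorem gam_g4 (n : ℕ) : (gam p h tp s δ he).g 4 n = YC (pf b φ₁ φ₂ n 4) (dC ψ s n)
    (h.pf_fin n 4) (h.dC_fin s n) (alp (dvg φ₁ φ₂) ψ s) := by
  rfl

theorem gam_g {r : Fin 5} (hr : r ≠ 4) (n : ℕ) : (gam p h tp s δ he).g r n =
    insW (grp p b tp n ⌊δ * n⌋₊ r (pf b φ₁ φ₂ n r)) (h.pf_fin n r) := if_neg hr

/-- The product of the groups and the centre. -/
theorem om_prod {om : Ins → ℂ} (hom : IsOm (√3) om) (n : ℕ)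
    (hd : ∀ (r r' : Fin 5) (c c' : Ed → ℝ), r ≠ r' →
      Disjoint (grp p b tp n ⌊δ * n⌋₊ r c).S (grp p b tp n ⌊δ * n⌋₊ r' c').S) :
    (sysOm om).w (∏ r, (gam p h tp s δ he).g r n) =
      ((∫ ω, (PW p (mks p b tp) n ⌊δ * n⌋₊ (fun e => ∑ r, pf1 b φ₁ φ₂ ψ s n r e)).X ω ∂μ -
        alp (dvg φ₁ φ₂) ψ s *
          ∫ ω, (PW p (mks p b tp) n ⌊δ * n⌋₊ (fun e => ∑ r, pf b φ₁ φ₂ n r e)).X ω ∂μ : ℝ) : ℂ) := by
  classical
  set Γ := gam p h tp s δ he with hΓ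
  have hc0 : Fc (PW p (mks p b tp) n ⌊δ * n⌋₊ (fun e => ∑ r, pf b φ₁ φ₂ n r e)) :=
    H199.sig_fc (W := fun r => grp p b tp n ⌊δ * n⌋₊ r (pf b φ₁ φ₂ n r)) fun r => h.pf_fin n r
  have hc1 : Fc (PW p (mks p b tp) n ⌊δ * n⌋₊ (fun e => ∑ r, pf1 b φ₁ φ₂ ψ s n r e)) :=
    H199.sig_fc (W := fun r => grp p b tp n ⌊δ * n⌋₊ r (pf1 b φ₁ φ₂ ψ s n r))
      fun r => h.pf1_fin s n r
  set P : LIns := ∏ r ∈ univ.erase (4 : Fin 5), Γ.g r n with hP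
  have h4 : (4 : Fin 5) ∈ (univ : Finset (Fin 5)) := mem_univ _
  have e0 : insW (PW p (mks p b tp) n ⌊δ * n⌋₊ (fun e => ∑ r, pf b φ₁ φ₂ n r e)) hc0 =
      P * insW (Γ.G 4 n) (Γ.hc 4 n) := by
    rw [H199.sig_grp p b tp n ⌊δ * n⌋₊ (fun r => pf b φ₁ φ₂ n r) (fun r => h.pf_fin n r)
      (fun r r' hr => hd r r' _ _ hr) hc0, ← Finset.prod_erase_mul _ _ h4]
    refine congrArg (· * insW (Γ.G 4 n) (Γ.hc 4 n)) ?_
    refine Finset.prod_congr rfl fun r hr => ?_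
    exact (gam_g (Finset.ne_of_mem_erase hr) n).symm
  have e1 : insW (PW p (mks p b tp) n ⌊δ * n⌋₊ (fun e => ∑ r, pf1 b φ₁ φ₂ ψ s n r e)) hc1 =
      P * insW (Γ.G1 n) (Γ.hc1 n) := by
    rw [H199.sig_grp p b tp n ⌊δ * n⌋₊ (fun r => pf1 b φ₁ φ₂ ψ s n r) (fun r => h.pf1_fin s n r)
      (fun r r' hr => hd r r' _ _ hr) hc1, ← Finset.prod_erase_mul _ _ h4]
    refine congrArg (· * insW (Γ.G1 n) (Γ.hc1 n)) ?_
    refine Finset.prod_congr rfl fun r hr => ?_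
    rw [gam_g (Finset.ne_of_mem_erase hr) n]
    refine H199.insW_congr ?_ _ _
    rw [pf1_ne _ _ _ _ _ _ (Finset.ne_of_mem_erase hr)]
  have e2 : (∏ r, Γ.g r n) = P * Γ.g 4 n := (Finset.prod_erase_mul _ _ h4).symm
  show om (∏ r, Γ.g r n).1 = _
  rw [e2, H825.om_lin3 hom (Γ.hg4 n) P, ← e0, ← e1, H199.om_insW hom, H199.om_insW hom]
  push_cast
  rfl

/-- The normalisation. -/
theorem prod_Z [NeZero l] (hQ : (mks p b tp).Ok) (zt zf : ℕ → ℝ) (n : ℕ) :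
    ∏ r, (gam p h tp s δ he).Z zt zf r n = zt n ^ (l * 3) * zf n := by
  show ∏ r, (zt n ^ Fintype.card (GI p b tp r) *
    zf n ^ (grp p b tp n ⌊δ * n⌋₊ r (pf b φ₁ φ₂ n r)).jumps) = _
  rw [Finset.prod_mul_distrib, Finset.prod_pow_eq_pow_sum, Finset.prod_pow_eq_pow_sum,
    H199.card_GI, H199.sum_jumps p b tp n ⌊δ * n⌋₊ (fun r => pf b φ₁ φ₂ n r) 0,
    H199.jumps_PW hQ, pow_one]

theorem gam_Z4 (zt zf : ℕ → ℝ) (n : ℕ) : (gam p h tp s δ he).Z zt zf 4 n = 1 := by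
  classical
  show zt n ^ Fintype.card (GI p b tp 4) *
    zf n ^ (grp p b tp n ⌊δ * n⌋₊ 4 (pf b φ₁ φ₂ n 4)).jumps = 1
  have e1 : Fintype.card (GI p b tp 4) = 0 := Fintype.card_eq_zero_iff.2 he
  have e2 : (grp p b tp n ⌊δ * n⌋₊ 4 (pf b φ₁ φ₂ n 4)).jumps = 0 := by
    unfold WC.jumps
    rw [card_eq_zero, eq_empty_iff_forall_notMem]
    intro x
    exact he.elim x
  rw [e1, e2, pow_zero, pow_zero, one_mul]

/-- **The estimates.** -/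
theorem gam_ok [NeZero l] (hp : IsPolygon p) (hS : Encloses p S₀) (hb : b.Ok S₀)
    (h : Dat S₀ b φ₁ φ₂ ψ) (h0 : 0 < tp) (h1 : tp < 1)
    (ht : ∀ i : ℤ, ∀ y ∈ ({b.xl, b.xr, b.yb, b.yt} : Set ℝ), y ≠ i + tp ∧ y ≠ i - tp) (s : ℝ)
    (he : IsEmpty (GI p b tp 4)) :
    ∃ δ₀ : ℝ, 0 < δ₀ ∧ ∀ δ : ℝ, 0 < δ → δ < δ₀ → ∃ η : ℝ, 0 < η ∧ ∃ ρ : ℕ, ∃ κ R B : ℝ,
      (gam p h tp s δ he).Ok (KB b ρ η) (bN η) κ R B ∧
      (∀ᶠ n : ℕ in atTop, ∀ (r r' : Fin 5) (c c' : Ed → ℝ), r ≠ r' →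
          Disjoint (grp p b tp n ⌊δ * n⌋₊ r c).S (grp p b tp n ⌊δ * n⌋₊ r' c').S) ∧
      (∀ᶠ n : ℕ in atTop, |⌊b.xl * n⌋| ≤ ρ * bN η n ∧ |⌊b.xr * n⌋| ≤ ρ * bN η n ∧
        |⌊b.yb * n⌋| ≤ ρ * bN η n ∧ |⌊b.yt * n⌋| ≤ ρ * bN η n) ∧
      (∀ᶠ n : ℕ in atTop, LI (KB b ρ η 4 n) (YC (pf b φ₁ φ₂ n 4) (dC ψ s n) (h.pf_fin n 4)
        (h.dC_fin s n) (alp (dvg φ₁ φ₂) ψ s)).1) := by
  obtain ⟨κ₀, hκ₀, B, hB, hF⟩ := h.flowIn s
  obtain ⟨κ₁, hκ₁, R₁, hM⟩ := h.mg s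
  obtain ⟨δ₀, hδ₀, H⟩ := H199.grp_all hp hS hb h0 h1 ht
  refine ⟨δ₀, hδ₀, fun δ hδ hδ' => ?_⟩
  obtain ⟨κ₂, hκ₂, R₂, H2⟩ := H δ hδ hδ' κ₀ hκ₀
  set κ : ℝ := min κ₁ κ₂ with hκ
  have hκ0 : 0 < κ := lt_min hκ₁ hκ₂
  set R : ℝ := max R₁ R₂ with hR
  set η : ℝ := min (κ / 8) 1 with hη
  have hη0 : 0 < η := lt_min (by positivity) one_pos
  have hη8 : 8 * η ≤ κ := by
    have := min_le_left (κ / 8) 1
    rw [← hη] at this
    linarith
  obtain ⟨ρ₀, hρ₀⟩ := H199.edT_of_mg b R hη0 hη8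
  set bb : ℝ := |b.xl| + |b.xr| + |b.yb| + |b.yt| + 1 with hbb
  obtain ⟨ρ₁, hρ₁⟩ := NN_rho hη0 bb
  set ρ : ℕ := max ρ₀ ρ₁ with hρ
  have hn1 : ∀ᶠ n : ℕ in atTop, (∀ r : Fin 5, ∀ e, pf b φ₁ φ₂ n r e ≠ 0 ∨
      pf1 b φ₁ φ₂ ψ s n r e ≠ 0 → e ∈ EdT (KB b ρ η r n)) := by
    filter_upwards [hM, hρ₀ ρ (le_max_left _ _)] with n hn hn' r e he
    have h3 := hn r e he
    exact hn' r e (mg_mono h3.1 (min_le_left _ _))
      (h3.2.trans (mul_le_mul_of_nonneg_right (le_max_left _ _) (Nat.cast_nonneg _)))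
  refine ⟨η, hη0, ρ, min κ (η / 2), R, B, ?_, ?_, ?_, ?_⟩
  · have hn2 : ∀ᶠ n : ℕ in atTop, (∀ (r : Fin 5) (c : Ed → ℝ),
        ∀ e ∈ (grp p b tp n ⌊δ * n⌋₊ r c).S, e ∈ EdT (KB b ρ η r n)) := by
      filter_upwards [H2 B, hρ₀ ρ (le_max_left _ _)] with n hn hn' r c e he
      have h3 := hn.2.1 r c e he
      exact hn' r e (mg_mono h3.1 (min_le_right _ _))
        (h3.2.trans (mul_le_mul_of_nonneg_right (le_max_right _ _) (Nat.cast_nonneg _)))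
    refine ⟨lt_min hκ0 (by positivity), ?_, ?_, ?_, ?_, ?_, ?_, ?_⟩
    · filter_upwards [(tendsto_natCast_atTop_atTop (R := ℝ)).eventually_ge_atTop (2 / η),
        eventually_gt_atTop 0] with n hn hn0
      have hn0' : (0 : ℝ) < n := by exact_mod_cast hn0
      have hn1 : (1 : ℝ) ≤ n := by exact_mod_cast hn0
      rw [div_le_iff₀ hη0] at hn
      have f1 := Nat.lt_floor_add_one (η * n)
      have f2 := Nat.floor_le (show 0 ≤ η * n by positivity)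
      constructor
      · have h3 : (⌊η * n⌋₊ : ℝ) ≤ bN η n := by
          unfold bN
          exact_mod_cast le_max_right _ _
        have h4 : min κ (η / 2) * n ≤ η / 2 * n :=
          mul_le_mul_of_nonneg_right (min_le_right _ _) hn0'.le
        linarith
      · unfold bN
        push_cast
        refine max_le hn1 (f2.trans ?_)
        have := min_le_right (κ / 8) 1
        rw [← hη] at this
        nlinarith
    · filter_upwards [H2 B, hF] with n hn hn' r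
      exact H199.Adm.mono (hn.1 r _ (hn' r).1) (mul_le_mul_of_nonneg_right
        ((min_le_left _ _).trans (min_le_right _ _)) (Nat.cast_nonneg _))
        (mul_le_mul_of_nonneg_right (le_max_right _ _) (Nat.cast_nonneg _)) le_rfl
    · filter_upwards [H2 B, hF] with n hn hn'
      exact H199.Adm.mono (hn.1 4 _ (hn' 4).2) (mul_le_mul_of_nonneg_right
        ((min_le_left _ _).trans (min_le_right _ _)) (Nat.cast_nonneg _))
        (mul_le_mul_of_nonneg_right (le_max_right _ _) (Nat.cast_nonneg _)) le_rfl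
    · filter_upwards [hn1, hn2] with n a1 a2 r
      exact H199.pts_sub (a2 r _) fun e he => a1 r e (Or.inl he)
    · filter_upwards [hn1, hn2] with n a1 a2
      exact H199.pts_sub (a2 4 _) fun e he => a1 4 e (Or.inr he)
    · filter_upwards [hn1, hn2] with n a1 a2 r
      exact H199.insW_LI _ (a2 r _) fun e he => a1 r e (Or.inl he)
    · filter_upwards [hn1, hn2] with n a1 a2
      exact H199.insW_LI _ (a2 4 _) fun e he => a1 4 e (Or.inr he)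
  · filter_upwards [H2 B] with n hn
    exact hn.2.2
  · have hbd : ∀ y : ℝ, |y| ≤ bb - 1 → ∀ n : ℕ, (∀ x : ℝ, x ≤ bb * n → x + 2 ≤ ρ₁ * NN η n) →
        1 ≤ n → |⌊y * n⌋| ≤ ρ * bN η n := by
      intro y hy n hn hn1
      have hn1' : (1 : ℝ) ≤ n := by exact_mod_cast hn1
      have h3 := hn (bb * n) le_rfl
      have h4 := Int.floor_le (y * n)
      have h5 := Int.lt_floor_add_one (y * n)
      have h6 : |y * n| ≤ (bb - 1) * n := by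
        rw [abs_mul, abs_of_nonneg (show (0 : ℝ) ≤ n by positivity)]
        exact mul_le_mul_of_nonneg_right hy (by positivity)
      rw [abs_le] at h6
      have h7 : (ρ₁ : ℝ) * NN η n ≤ ρ * bN η n := by
        have : (ρ₁ : ℝ) ≤ ρ := by exact_mod_cast le_max_right ρ₀ ρ₁
        exact mul_le_mul_of_nonneg_right this (Nat.cast_nonneg _)
      have h8 : (|⌊y * n⌋| : ℝ) ≤ ρ * bN η n := by
        rw [abs_le]
        constructor <;> nlinarith [h6.1, h6.2]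
      exact_mod_cast h8
    filter_upwards [hρ₁, eventually_ge_atTop 1] with n hn hn1
    have p1 := abs_nonneg b.xl
    have p2 := abs_nonneg b.xr
    have p3 := abs_nonneg b.yb
    have p4 := abs_nonneg b.yt
    exact ⟨hbd _ (by rw [hbb]; linarith) n hn hn1, hbd _ (by rw [hbb]; linarith) n hn hn1,
      hbd _ (by rw [hbb]; linarith) n hn hn1, hbd _ (by rw [hbb]; linarith) n hn hn1⟩
  · filter_upwards [hn1] with n a1
    refine YC_LI _ _ _ (fun e he => a1 4 e (Or.inl he)) fun e he => ?_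
    by_cases h3 : pf b φ₁ φ₂ n 4 e = 0
    · refine a1 4 e (Or.inr ?_)
      rw [pf1_four]
      show pf b φ₁ φ₂ n 4 e + dC ψ s n e ≠ 0
      rwa [h3, zero_add]
    · exact a1 4 e (Or.inl h3)

end Vale.Agent.P167.H680
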